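import Vale.Agent.Lib.P249Low.OneD

/-! The discrete Gaussian product measure on a grid: exponential moments of Lipschitz functions,
`p`-th moments, and the second moment of the distance. -/

namespace Vale.Agent.Lib.P249Low

open Finset

/-- The grid point attached to an index. -/
noncomputable def gval (M : ℕ) (i : Fin (2 * M + 1)) : ℝ := ((i : ℕ) : ℝ) - M

/-- The one dimensional weights, on the index type. -/
noncomputable def rhoF (M : ℕ) (h : ℝ) (i : Fin (2 * M + 1)) : ℝ := rho M h i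

lemma rhoF_pos (M : ℕ) (h : ℝ) (i : Fin (2 * M + 1)) : 0 < rhoF M h i := rho_pos _ _ _

lemma sum_rhoF (M : ℕ) (h : ℝ) : ∑ i, rhoF M h i = Rtot M h := by
  rw [Rtot, Finset.sum_range]
  rfl

/-- One dimensional inequality on the index type. -/
theorem one_d_fin (M : ℕ) (hM : 1 ≤ M) (h : ℝ) (a b : Fin (2 * M + 1) → ℝ)
    (hab : ∀ i j, a i + b j ≤ h ^ 2 / 4 * (gval M i - gval M j) ^ 2) :
    (∑ i, rhoF M h i * Real.exp (a i)) * (∑ j, rhoF M h j * Real.exp (b j))
      ≤ (Rtot M h + 1) ^ 2 := by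
  set a' : ℕ → ℝ := fun n => if hn : n < 2 * M + 1 then a ⟨n, hn⟩ else 0 with ha'
  set b' : ℕ → ℝ := fun n => if hn : n < 2 * M + 1 then b ⟨n, hn⟩ else 0 with hb'
  have h1 := one_d M hM h a' b' (by
    intro i hi j hj
    have h0 := hab ⟨i, hi⟩ ⟨j, hj⟩
    have h1 : a' i = a ⟨i, hi⟩ := dif_pos hi
    have h2 : b' j = b ⟨j, hj⟩ := dif_pos hj
    rw [h1, h2]
    exact h0)
  have h2 : ∑ i ∈ range (2 * M + 1), rho M h i * Real.exp (a' i)
      = ∑ i, rhoF M h i * Real.exp (a i) := by
    rw [Finset.sum_range]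
    refine Finset.sum_congr rfl (fun i _ => ?_)
    have h0 : a' i = a i := dif_pos i.isLt
    rw [h0]
    rfl
  have h3 : ∑ i ∈ range (2 * M + 1), rho M h i * Real.exp (b' i)
      = ∑ i, rhoF M h i * Real.exp (b i) := by
    rw [Finset.sum_range]
    refine Finset.sum_congr rfl (fun i _ => ?_)
    have h0 : b' i = b i := dif_pos i.isLt
    rw [h0]
    rfl
  rw [h2, h3] at h1
  exact h1

/-- The product weight. -/
noncomputable def mu (M : ℕ) (h : ℝ) {k : ℕ} (x : Fin k → Fin (2 * M + 1)) : ℝ :=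
  ∏ l, rhoF M h (x l)

lemma mu_pos (M : ℕ) (h : ℝ) {k : ℕ} (x : Fin k → Fin (2 * M + 1)) : 0 < mu M h x :=
  Finset.prod_pos (fun _ _ => rhoF_pos _ _ _)

/-- The squared distance in index units. -/
noncomputable def Sq (M : ℕ) {k : ℕ} (x y : Fin k → Fin (2 * M + 1)) : ℝ :=
  ∑ l, (gval M (x l) - gval M (y l)) ^ 2

lemma Sq_nonneg (M : ℕ) {k : ℕ} (x y : Fin k → Fin (2 * M + 1)) : 0 ≤ Sq M x y :=
  Finset.sum_nonneg (fun _ _ => sq_nonneg _)

/-- Exponential inequality in `k` dimensions. -/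
theorem exp_ineq (M : ℕ) (hM : 1 ≤ M) (h : ℝ) (k : ℕ) (a b : (Fin k → Fin (2 * M + 1)) → ℝ)
    (hab : ∀ x y, a x + b y ≤ h ^ 2 / 4 * Sq M x y) :
    (∑ x, mu M h x * Real.exp (a x)) * (∑ y, mu M h y * Real.exp (b y))
      ≤ ((Rtot M h + 1) ^ 2) ^ k := by
  have hR : 0 ≤ Rtot M h := Finset.sum_nonneg (fun i _ => (rho_pos _ _ _).le)
  have : Nonempty (Fin (2 * M + 1)) := ⟨⟨0, by omega⟩⟩
  have := tensor (rhoF M h) (rhoF_pos M h) (fun i j => h ^ 2 / 4 * (gval M i - gval M j) ^ 2)
    ((Rtot M h + 1) ^ 2) (by positivity) (fun a b hab => one_d_fin M hM h a b hab) k a b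
    (by
      intro x y
      have := hab x y
      rw [Sq, Finset.mul_sum] at this
      exact this)
  exact this

/-- `t ^ q ≤ q ^ q exp t`. -/
lemma rpow_le_exp (q : ℝ) (hq : 0 < q) (t : ℝ) (ht : 0 ≤ t) :
    t ^ q ≤ q ^ q * Real.exp t := by
  have h1 : t / q ≤ Real.exp (t / q) := by
    have := Real.add_one_le_exp (t / q)
    linarith
  have h2 : (t / q) ^ q ≤ (Real.exp (t / q)) ^ q :=
    Real.rpow_le_rpow (by positivity) h1 hq.le
  have h3 : (Real.exp (t / q)) ^ q = Real.exp t := by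
    rw [← Real.exp_mul]
    congr 1
    field_simp
  have h4 : t ^ q = q ^ q * (t / q) ^ q := by
    rw [Real.div_rpow ht hq.le]
    have : q ^ q ≠ 0 := (Real.rpow_pos_of_pos hq q).ne'
    field_simp
  rw [h4]
  calc q ^ q * (t / q) ^ q ≤ q ^ q * (Real.exp (t / q)) ^ q :=
        mul_le_mul_of_nonneg_left h2 (Real.rpow_pos_of_pos hq q).le
    _ = q ^ q * Real.exp t := by rw [h3]

/-- `p`-th moments of Lipschitz functions on the grid. -/
theorem moment_bound (M : ℕ) (hM : 1 ≤ M) (h : ℝ) (k : ℕ) (g : (Fin k → Fin (2 * M + 1)) → ℝ)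
    (L : ℝ) (hL : 0 < L) (hg : ∀ x y, |g x - g y| ≤ L * (|h| * Real.sqrt (Sq M x y)))
    (q : ℝ) (hq : 0 < q) :
    ∑ x, ∑ y, mu M h x * mu M h y * |g x - g y| ^ q
      ≤ L ^ q * q ^ q * (2 * Real.exp 1) * ((Rtot M h + 1) ^ 2) ^ k := by
  set τ := 1 / L with hτ
  have hτ0 : 0 < τ := by positivity
  have hkey : ∀ x y, (τ * g x - 1 / 2) + (-(τ * g y) - 1 / 2) ≤ h ^ 2 / 4 * Sq M x y := by
    intro x y
    have h1 : τ * (g x - g y) ≤ |h| * Real.sqrt (Sq M x y) := by
      have h2 : g x - g y ≤ L * (|h| * Real.sqrt (Sq M x y)) := (le_abs_self _).trans (hg x y)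
      have h3 : τ * (g x - g y) ≤ τ * (L * (|h| * Real.sqrt (Sq M x y))) :=
        mul_le_mul_of_nonneg_left h2 hτ0.le
      have h4 : τ * (L * (|h| * Real.sqrt (Sq M x y))) = |h| * Real.sqrt (Sq M x y) := by
        rw [hτ]
        field_simp
      linarith
    have h5 : (|h| * Real.sqrt (Sq M x y)) ^ 2 = h ^ 2 * Sq M x y := by
      rw [mul_pow, sq_abs, Real.sq_sqrt (Sq_nonneg M x y)]
    nlinarith [sq_nonneg (|h| * Real.sqrt (Sq M x y) - 2)]
  have hexp := exp_ineq M hM h k (fun x => τ * g x - 1 / 2) (fun y => -(τ * g y) - 1 / 2) hkey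
  set Big := ((Rtot M h + 1) ^ 2) ^ k with hBig
  have hdouble : ∑ x, ∑ y, mu M h x * mu M h y * Real.exp (τ * (g x - g y))
      ≤ Real.exp 1 * Big := by
    have h1 : (∑ x, mu M h x * Real.exp (τ * g x - 1 / 2))
        * (∑ y, mu M h y * Real.exp (-(τ * g y) - 1 / 2))
        = Real.exp (-1) * ∑ x, ∑ y, mu M h x * mu M h y * Real.exp (τ * (g x - g y)) := by
      rw [Finset.sum_mul_sum, Finset.mul_sum]
      refine Finset.sum_congr rfl (fun x _ => ?_)
      rw [Finset.mul_sum]
      refine Finset.sum_congr rfl (fun y _ => ?_)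
      have h2 : Real.exp (τ * g x - 1 / 2) * Real.exp (-(τ * g y) - 1 / 2)
          = Real.exp (-1) * Real.exp (τ * (g x - g y)) := by
        rw [← Real.exp_add, ← Real.exp_add]
        congr 1
        ring
      calc mu M h x * Real.exp (τ * g x - 1 / 2) * (mu M h y * Real.exp (-(τ * g y) - 1 / 2))
          = mu M h x * mu M h y * (Real.exp (τ * g x - 1 / 2) * Real.exp (-(τ * g y) - 1 / 2)) := by
            ring
        _ = _ := by rw [h2]; ring
    rw [h1] at hexp
    have h3 : Real.exp 1 * Real.exp (-1) = 1 := by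
      rw [← Real.exp_add]
      simp
    calc _ = Real.exp 1 * Real.exp (-1) * ∑ x, ∑ y, mu M h x * mu M h y * Real.exp (τ * (g x - g y)) := by
          rw [h3, one_mul]
      _ = Real.exp 1 * (Real.exp (-1) * ∑ x, ∑ y, mu M h x * mu M h y * Real.exp (τ * (g x - g y))) := by
          ring
      _ ≤ _ := mul_le_mul_of_nonneg_left hexp (Real.exp_pos _).le
  have hdouble' : ∑ x, ∑ y, mu M h x * mu M h y * Real.exp (τ * (g y - g x))
      ≤ Real.exp 1 * Big := by
    rw [Finset.sum_comm]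
    refine le_trans (le_of_eq ?_) hdouble
    refine Finset.sum_congr rfl (fun y _ => Finset.sum_congr rfl (fun x _ => ?_))
    ring
  have hpoint : ∀ x y, mu M h x * mu M h y * |g x - g y| ^ q
      ≤ L ^ q * q ^ q * (mu M h x * mu M h y * Real.exp (τ * (g x - g y))
        + mu M h x * mu M h y * Real.exp (τ * (g y - g x))) := by
    intro x y
    have hmm : 0 < mu M h x * mu M h y := mul_pos (mu_pos _ _ _) (mu_pos _ _ _)
    set t := |g x - g y| / L with ht
    have ht0 : 0 ≤ t := by positivity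
    have h1 : |g x - g y| ^ q = L ^ q * t ^ q := by
      rw [ht, Real.div_rpow (abs_nonneg _) hL.le]
      have : L ^ q ≠ 0 := (Real.rpow_pos_of_pos hL q).ne'
      field_simp
    have h2 := rpow_le_exp q hq t ht0
    have h3 : Real.exp t ≤ Real.exp (τ * (g x - g y)) + Real.exp (τ * (g y - g x)) := by
      have h4 : t = τ * |g x - g y| := by
        rw [ht, hτ]
        ring
      rw [h4]
      rcases le_total 0 (g x - g y) with h5 | h5
      · rw [abs_of_nonneg h5]
        have := Real.exp_pos (τ * (g y - g x))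
        linarith
      · rw [abs_of_nonpos h5]
        have h6 : τ * -(g x - g y) = τ * (g y - g x) := by ring
        rw [h6]
        have := Real.exp_pos (τ * (g x - g y))
        linarith
    have hqq : 0 < q ^ q := Real.rpow_pos_of_pos hq q
    have hLq : 0 < L ^ q := Real.rpow_pos_of_pos hL q
    calc mu M h x * mu M h y * |g x - g y| ^ q
        = mu M h x * mu M h y * (L ^ q * t ^ q) := by rw [h1]
      _ ≤ mu M h x * mu M h y * (L ^ q * (q ^ q * (Real.exp (τ * (g x - g y)) + Real.exp (τ * (g y - g x))))) := by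
          apply mul_le_mul_of_nonneg_left _ hmm.le
          apply mul_le_mul_of_nonneg_left _ hLq.le
          exact h2.trans (mul_le_mul_of_nonneg_left h3 hqq.le)
      _ = _ := by ring
  calc ∑ x, ∑ y, mu M h x * mu M h y * |g x - g y| ^ q
      ≤ ∑ x, ∑ y, L ^ q * q ^ q * (mu M h x * mu M h y * Real.exp (τ * (g x - g y))
        + mu M h x * mu M h y * Real.exp (τ * (g y - g x))) :=
        Finset.sum_le_sum (fun x _ => Finset.sum_le_sum (fun y _ => hpoint x y))
    _ = L ^ q * q ^ q * ((∑ x, ∑ y, mu M h x * mu M h y * Real.exp (τ * (g x - g y)))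
        + ∑ x, ∑ y, mu M h x * mu M h y * Real.exp (τ * (g y - g x))) := by
        rw [← Finset.sum_add_distrib, Finset.mul_sum]
        refine Finset.sum_congr rfl (fun x _ => ?_)
        rw [← Finset.sum_add_distrib, Finset.mul_sum]
    _ ≤ L ^ q * q ^ q * (Real.exp 1 * Big + Real.exp 1 * Big) := by
        apply mul_le_mul_of_nonneg_left (add_le_add hdouble hdouble')
        have hqq : 0 < q ^ q := Real.rpow_pos_of_pos hq q
        have hLq : 0 < L ^ q := Real.rpow_pos_of_pos hL q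
        positivity
    _ = _ := by ring

/-- Splitting a sum over tuples. -/
lemma sum_cons {α : Type*} [Fintype α] {k : ℕ} (G : (Fin (k + 1) → α) → ℝ) :
    ∑ x, G x = ∑ i, ∑ x' : Fin k → α, G (Fin.cons i x') := by
  classical
  rw [← (Fin.consEquiv (fun _ => α)).sum_comp, Fintype.sum_prod_type]
  rfl

lemma mu_cons (M : ℕ) (h : ℝ) {k : ℕ} (i : Fin (2 * M + 1)) (x : Fin k → Fin (2 * M + 1)) :
    mu M h (Fin.cons i x : Fin (k + 1) → Fin (2 * M + 1)) = rhoF M h i * mu M h x := by
  simp [mu, Fin.prod_univ_succ]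

lemma Sq_cons (M : ℕ) {k : ℕ} (i j : Fin (2 * M + 1)) (x y : Fin k → Fin (2 * M + 1)) :
    Sq M (Fin.cons i x : Fin (k + 1) → Fin (2 * M + 1)) (Fin.cons j y)
      = (gval M i - gval M j) ^ 2 + Sq M x y := by
  simp [Sq, Fin.sum_univ_succ]

/-- The total mass of the product weight. -/
lemma sum_mu (M : ℕ) (h : ℝ) (k : ℕ) :
    ∑ x : Fin k → Fin (2 * M + 1), mu M h x = Rtot M h ^ k := by
  induction k with
  | zero => simp [mu]
  | succ k ih =>
    rw [sum_cons]
    simp only [mu_cons]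
    simp only [← Finset.mul_sum, ih]
    rw [← Finset.sum_mul, sum_rhoF]
    ring

/-- One dimensional second moment. -/
noncomputable def Dvar (M : ℕ) (h : ℝ) : ℝ :=
  ∑ i, ∑ j, rhoF M h i * rhoF M h j * (gval M i - gval M j) ^ 2

/-- Second moment of the distance over the product weight. -/
lemma sum_Sq (M : ℕ) (h : ℝ) (k : ℕ) :
    (∑ x : Fin k → Fin (2 * M + 1), ∑ y : Fin k → Fin (2 * M + 1), mu M h x * mu M h y * Sq M x y)
      * Rtot M h ^ 2 = k * Dvar M h * Rtot M h ^ (2 * k) := by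
  induction k with
  | zero => simp [Sq]
  | succ k ih =>
    have hstep : (∑ x : Fin (k + 1) → Fin (2 * M + 1), ∑ y : Fin (k + 1) → Fin (2 * M + 1),
        mu M h x * mu M h y * Sq M x y)
        = Dvar M h * Rtot M h ^ (2 * k) + Rtot M h ^ 2 *
          ∑ x : Fin k → Fin (2 * M + 1), ∑ y : Fin k → Fin (2 * M + 1), mu M h x * mu M h y * Sq M x y := by
      rw [sum_cons]
      simp only [sum_cons (fun y => mu M h _ * mu M h y * Sq M _ y)]
      have hterm : ∀ (i j : Fin (2 * M + 1)) (x' y' : Fin k → Fin (2 * M + 1)),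
          mu M h (Fin.cons i x' : Fin (k + 1) → Fin (2 * M + 1)) * mu M h (Fin.cons j y' : Fin (k + 1) → Fin (2 * M + 1))
            * Sq M (Fin.cons i x' : Fin (k + 1) → Fin (2 * M + 1)) (Fin.cons j y')
          = rhoF M h i * rhoF M h j * (gval M i - gval M j) ^ 2 * (mu M h x' * mu M h y')
            + rhoF M h i * rhoF M h j * (mu M h x' * mu M h y' * Sq M x' y') := by
        intro i j x' y'
        rw [mu_cons, mu_cons, Sq_cons]
        ring
      simp only [hterm]
      have hsplit : ∀ (A : Fin (2 * M + 1) → Fin (2 * M + 1) → ℝ) (U V : ℝ)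
          (u v : (Fin k → Fin (2 * M + 1)) → (Fin k → Fin (2 * M + 1)) → ℝ),
          (∑ x', ∑ y', u x' y') = U → (∑ x', ∑ y', v x' y') = V →
          ∀ i, ∑ x', ∑ j, ∑ y', (A i j * u x' y' + rhoF M h i * rhoF M h j * v x' y')
            = ∑ j, (A i j * U + rhoF M h i * rhoF M h j * V) := by
        intro A U V u v hU hV i
        simp only [Finset.sum_add_distrib, ← Finset.mul_sum]
        rw [Finset.sum_comm (s := (univ : Finset (Fin k → Fin (2 * M + 1))))]
        rw [Finset.sum_comm (s := (univ : Finset (Fin k → Fin (2 * M + 1))))]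
        simp only [← Finset.mul_sum]
        simp only [hU, hV]
      have hZ : (∑ x' : Fin k → Fin (2 * M + 1), ∑ y' : Fin k → Fin (2 * M + 1), mu M h x' * mu M h y')
          = Rtot M h ^ (2 * k) := by
        simp only [← Finset.mul_sum, ← Finset.sum_mul, sum_mu]
        ring
      have hi : ∀ i, ∑ x', ∑ j, ∑ y', (rhoF M h i * rhoF M h j * (gval M i - gval M j) ^ 2 * (mu M h x' * mu M h y')
            + rhoF M h i * rhoF M h j * (mu M h x' * mu M h y' * Sq M x' y'))
          = ∑ j, (rhoF M h i * rhoF M h j * (gval M i - gval M j) ^ 2 * Rtot M h ^ (2 * k)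
            + rhoF M h i * rhoF M h j * (∑ x' : Fin k → Fin (2 * M + 1), ∑ y' : Fin k → Fin (2 * M + 1), mu M h x' * mu M h y' * Sq M x' y')) :=
        fun i => hsplit (fun i j => rhoF M h i * rhoF M h j * (gval M i - gval M j) ^ 2) _ _
          (fun x' y' => mu M h x' * mu M h y') (fun x' y' => mu M h x' * mu M h y' * Sq M x' y') hZ rfl i
      simp only [hi]
      simp only [Finset.sum_add_distrib, ← Finset.sum_mul, Dvar]
      congr 1
      have : (∑ i, ∑ j, rhoF M h i * rhoF M h j) = Rtot M h ^ 2 := by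
        simp only [← Finset.mul_sum, ← Finset.sum_mul, sum_rhoF]
        ring
      rw [← this]
    rw [hstep, add_mul, mul_assoc (Rtot M h ^ 2), ih]
    push_cast
    ring

end Vale.Agent.Lib.P249Low
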