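import Vale.Agent.Lib.P249Low.Grid

/-! Khintchine's inequality for Rademacher sums (elementary form) and numerics of the grid. -/

namespace Vale.Agent.Lib.P249Low

open Finset

/-- The sign attached to a boolean. -/
def eps (b : Bool) : ℝ := if b then 1 else -1

/-- A Rademacher sum. -/
noncomputable def rad {k : ℕ} (v : Fin k → ℝ) (σ : Fin k → Bool) : ℝ := ∑ l, v l * eps (σ l)

lemma rad_cons {k : ℕ} (v : Fin (k + 1) → ℝ) (b : Bool) (σ : Fin k → Bool) :
    rad v (Fin.cons b σ : Fin (k + 1) → Bool) = v 0 * eps b + rad (fun l => v l.succ) σ := by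
  simp [rad, Fin.sum_univ_succ]

lemma sum_rad_sq (k : ℕ) (v : Fin k → ℝ) :
    ∑ σ, (rad v σ) ^ 2 = 2 ^ k * ∑ l, (v l) ^ 2 := by
  induction k with
  | zero => simp [rad]
  | succ k ih =>
    rw [sum_cons]
    simp only [rad_cons, Fintype.sum_bool, eps]
    simp only [if_true, Bool.false_eq_true, if_false, mul_one, mul_neg]
    have h1 : ∀ σ : Fin k → Bool, (v 0 + rad (fun l => v l.succ) σ) ^ 2
        + (-v 0 + rad (fun l => v l.succ) σ) ^ 2
        = 2 * (v 0) ^ 2 + 2 * (rad (fun l => v l.succ) σ) ^ 2 := fun σ => by ring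
    rw [← Finset.sum_add_distrib]
    simp only [h1]
    rw [Finset.sum_add_distrib]
    have h2 : ∑ _σ : Fin k → Bool, 2 * (v 0) ^ 2 = 2 ^ k * (2 * (v 0) ^ 2) := by
      simp [Finset.card_univ]
    have h3 : ∑ σ, 2 * (rad (fun l => v l.succ) σ) ^ 2
        = 2 * (2 ^ k * ∑ l : Fin k, (v l.succ) ^ 2) := by
      rw [← Finset.mul_sum, ih]
    rw [h2, h3, Fin.sum_univ_succ]
    ring

lemma sum_rad_exp (k : ℕ) (v : Fin k → ℝ) :
    ∑ σ, Real.exp (rad v σ) ≤ 2 ^ k * Real.exp ((∑ l, (v l) ^ 2) / 2) := by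
  induction k with
  | zero => simp [rad]
  | succ k ih =>
    rw [sum_cons]
    simp only [rad_cons, Fintype.sum_bool, eps]
    simp only [if_true, Bool.false_eq_true, if_false, mul_one, mul_neg]
    have h1 : ∀ σ : Fin k → Bool, Real.exp (v 0 + rad (fun l => v l.succ) σ)
        + Real.exp (-v 0 + rad (fun l => v l.succ) σ)
        = 2 * Real.cosh (v 0) * Real.exp (rad (fun l => v l.succ) σ) := fun σ => by
      rw [Real.exp_add, Real.exp_add, Real.cosh_eq]
      ring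
    rw [← Finset.sum_add_distrib]
    simp only [h1]
    rw [← Finset.mul_sum]
    have h2 := ih (fun l => v l.succ)
    have h3 := Real.cosh_le_exp_half_sq (v 0)
    have hc : 0 < Real.cosh (v 0) := Real.cosh_pos _
    have h4 : Real.exp ((∑ l, (v l) ^ 2) / 2)
        = Real.exp ((v 0) ^ 2 / 2) * Real.exp ((∑ l : Fin k, (v l.succ) ^ 2) / 2) := by
      rw [← Real.exp_add, Fin.sum_univ_succ]
      congr 1
      ring
    rw [h4]
    calc 2 * Real.cosh (v 0) * ∑ σ, Real.exp (rad (fun l => v l.succ) σ)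
        ≤ 2 * Real.exp ((v 0) ^ 2 / 2) * (2 ^ k * Real.exp ((∑ l : Fin k, (v l.succ) ^ 2) / 2)) := by
          apply mul_le_mul _ h2 (Finset.sum_nonneg (fun _ _ => (Real.exp_pos _).le)) (by positivity)
          linarith
      _ = _ := by ring

lemma rad_smul {k : ℕ} (c : ℝ) (v : Fin k → ℝ) (σ : Fin k → Bool) :
    rad (fun l => c * v l) σ = c * rad v σ := by
  simp only [rad, Finset.mul_sum]
  refine Finset.sum_congr rfl (fun l _ => ?_)
  ring

/-- Upper Khintchine: `avg |X|^q ≤ q^q 2 e^{1/2} (Σ v²)^{q/2}`. -/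
theorem khin_upper (k : ℕ) (v : Fin k → ℝ) (q : ℝ) (hq : 0 < q) :
    ∑ σ, |rad v σ| ^ q ≤ 2 ^ k * (q ^ q * (2 * Real.exp (1 / 2))) * (∑ l, (v l) ^ 2) ^ (q / 2) := by
  set S := ∑ l, (v l) ^ 2 with hS
  have hS0 : 0 ≤ S := Finset.sum_nonneg (fun _ _ => sq_nonneg _)
  rcases eq_or_lt_of_le hS0 with h0 | hpos
  · have hv : ∀ l, v l = 0 := by
      intro l
      have := (Finset.sum_eq_zero_iff_of_nonneg (fun l _ => sq_nonneg (v l))).1 h0.symm l (Finset.mem_univ l)
      exact pow_eq_zero_iff (two_ne_zero) |>.1 this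
    have hrad : ∀ σ, rad v σ = 0 := by
      intro σ
      simp [rad, hv]
    simp only [hrad, abs_zero, Real.zero_rpow hq.ne', Finset.sum_const_zero]
    have h1 : 0 < q ^ q := Real.rpow_pos_of_pos hq q
    have h2 : 0 ≤ S ^ (q / 2) := Real.rpow_nonneg hS0 _
    positivity
  · set N := Real.sqrt S with hN
    have hNpos : 0 < N := Real.sqrt_pos.2 hpos
    have hNsq : N ^ 2 = S := Real.sq_sqrt hS0
    have hw : ∑ l, (v l / N) ^ 2 = 1 := by
      simp only [div_pow]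
      rw [← Finset.sum_div, ← hS, hNsq]
      exact div_self hpos.ne'
    have hw' : ∑ l, (-(v l / N)) ^ 2 = 1 := by
      simp only [neg_sq]
      exact hw
    have h1 := sum_rad_exp k (fun l => v l / N)
    have h2 := sum_rad_exp k (fun l => -(v l / N))
    rw [hw] at h1
    rw [hw'] at h2
    have hpoint : ∀ σ, |rad v σ| ^ q ≤ N ^ q * (q ^ q *
        (Real.exp (rad (fun l => v l / N) σ) + Real.exp (rad (fun l => -(v l / N)) σ))) := by
      intro σ
      have hr1 : rad (fun l => v l / N) σ = rad v σ / N := by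
        have : (fun l => v l / N) = (fun l => N⁻¹ * v l) := by
          funext l
          rw [div_eq_inv_mul]
        rw [this, rad_smul, div_eq_inv_mul]
      have hr2 : rad (fun l => -(v l / N)) σ = -(rad v σ / N) := by
        have : (fun l => -(v l / N)) = (fun l => (-N⁻¹) * v l) := by
          funext l
          rw [div_eq_inv_mul]
          ring
        rw [this, rad_smul, div_eq_inv_mul]
        ring
      rw [hr1, hr2]
      set t := |rad v σ| / N with ht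
      have ht0 : 0 ≤ t := by positivity
      have h3 : |rad v σ| ^ q = N ^ q * t ^ q := by
        rw [ht, Real.div_rpow (abs_nonneg _) hNpos.le]
        have : N ^ q ≠ 0 := (Real.rpow_pos_of_pos hNpos q).ne'
        field_simp
      rw [h3]
      have h4 := rpow_le_exp q hq t ht0
      have h5 : Real.exp t ≤ Real.exp (rad v σ / N) + Real.exp (-(rad v σ / N)) := by
        have h6 : t = |rad v σ / N| := by
          rw [ht, abs_div, abs_of_pos hNpos]
        rw [h6]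
        rcases le_total 0 (rad v σ / N) with h7 | h7
        · rw [abs_of_nonneg h7]
          have := Real.exp_pos (-(rad v σ / N))
          linarith
        · rw [abs_of_nonpos h7]
          have := Real.exp_pos (rad v σ / N)
          linarith
      apply mul_le_mul_of_nonneg_left _ (Real.rpow_pos_of_pos hNpos q).le
      exact h4.trans (mul_le_mul_of_nonneg_left h5 (Real.rpow_pos_of_pos hq q).le)
    have hNq : N ^ q = S ^ (q / 2) := by
      rw [← hNsq, ← Real.rpow_natCast, ← Real.rpow_mul hNpos.le]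
      congr 1
      push_cast
      ring
    calc ∑ σ, |rad v σ| ^ q
        ≤ ∑ σ, N ^ q * (q ^ q *
          (Real.exp (rad (fun l => v l / N) σ) + Real.exp (rad (fun l => -(v l / N)) σ))) :=
          Finset.sum_le_sum (fun σ _ => hpoint σ)
      _ = N ^ q * (q ^ q * (∑ σ, Real.exp (rad (fun l => v l / N) σ)
            + ∑ σ, Real.exp (rad (fun l => -(v l / N)) σ))) := by
          rw [← Finset.sum_add_distrib, Finset.mul_sum, Finset.mul_sum]
      _ ≤ N ^ q * (q ^ q * (2 ^ k * Real.exp (1 / 2) + 2 ^ k * Real.exp (1 / 2))) := by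
          apply mul_le_mul_of_nonneg_left _ (Real.rpow_pos_of_pos hNpos q).le
          apply mul_le_mul_of_nonneg_left _ (Real.rpow_pos_of_pos hq q).le
          exact add_le_add h1 h2
      _ = _ := by
          rw [hNq]
          ring

/-- Lower Khintchine for `q ≥ 2`. -/
theorem khin_lower (k : ℕ) (v : Fin k → ℝ) (q : ℝ) (hq : 2 ≤ q) :
    2 ^ k * (∑ l, (v l) ^ 2) ^ (q / 2) ≤ ∑ σ, |rad v σ| ^ q := by
  have hcard : (Finset.univ : Finset (Fin k → Bool)).card = 2 ^ k := by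
    simp [Finset.card_univ]
  have h2k : (0 : ℝ) < 2 ^ k := by positivity
  have h1 := Real.rpow_arith_mean_le_arith_mean_rpow (Finset.univ : Finset (Fin k → Bool))
    (fun _ => (2 : ℝ) ^ k)⁻¹ (fun σ => (rad v σ) ^ 2)
    (fun _ _ => by
      simp only [Pi.inv_apply]
      positivity)
    (by
      simp only [Pi.inv_apply, Finset.sum_const, hcard, nsmul_eq_mul]
      push_cast
      exact mul_inv_cancel₀ h2k.ne')
    (fun _ _ => sq_nonneg _) (p := q / 2) (by linarith)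
  simp only [Pi.inv_apply] at h1
  rw [← Finset.mul_sum, sum_rad_sq, ← mul_assoc, inv_mul_cancel₀ h2k.ne', one_mul,
    ← Finset.mul_sum] at h1
  have h3 : ∀ σ, ((rad v σ) ^ 2) ^ (q / 2) = |rad v σ| ^ q := by
    intro σ
    rw [← sq_abs, ← Real.rpow_natCast, ← Real.rpow_mul (abs_nonneg _)]
    congr 1
    push_cast
    ring
  simp only [h3] at h1
  calc 2 ^ k * (∑ l, (v l) ^ 2) ^ (q / 2)
      ≤ 2 ^ k * ((2 ^ k)⁻¹ * ∑ σ, |rad v σ| ^ q) := mul_le_mul_of_nonneg_left h1 h2k.le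
    _ = _ := by
      rw [← mul_assoc, mul_inv_cancel₀ h2k.ne', one_mul]

/-! Numerics for `M = k`, `h = 1 / k`. -/

lemma sum_range_id (m : ℕ) : ∑ i ∈ range m, (i : ℝ) = (m : ℝ) * (m - 1) / 2 := by
  induction m with
  | zero => simp
  | succ m ih =>
    rw [Finset.sum_range_succ, ih]
    push_cast
    ring

lemma sum_range_sq (m : ℕ) : ∑ i ∈ range m, (i : ℝ) ^ 2 = ((m : ℝ) - 1) * m * (2 * m - 1) / 6 := by
  induction m with
  | zero => simp
  | succ m ih =>
    rw [Finset.sum_range_succ, ih]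
    push_cast
    ring

lemma sum_sum_diff_sq (m : ℕ) :
    ∑ i ∈ range m, ∑ j ∈ range m, ((i : ℝ) - j) ^ 2 = (m : ℝ) ^ 2 * ((m : ℝ) ^ 2 - 1) / 6 := by
  have h1 : ∀ i : ℕ, ∑ j ∈ range m, ((i : ℝ) - j) ^ 2
      = m * (i : ℝ) ^ 2 - 2 * i * ∑ j ∈ range m, (j : ℝ) + ∑ j ∈ range m, (j : ℝ) ^ 2 := by
    intro i
    have : ∀ j : ℕ, ((i : ℝ) - j) ^ 2 = (i : ℝ) ^ 2 - 2 * i * j + (j : ℝ) ^ 2 := fun j => by ring
    simp only [this, Finset.sum_add_distrib, Finset.sum_sub_distrib, Finset.sum_const,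
      Finset.card_range, nsmul_eq_mul, ← Finset.mul_sum]
  simp only [h1, Finset.sum_add_distrib, Finset.sum_sub_distrib, Finset.sum_const,
    Finset.card_range, nsmul_eq_mul, ← Finset.mul_sum, ← Finset.sum_mul, sum_range_id, sum_range_sq]
  ring

lemma rho_bounds (k : ℕ) (hk : 1 ≤ k) (i : ℕ) (hi : i < 2 * k + 1) :
    Real.exp (-(1 / 2)) ≤ rho k (1 / (k : ℝ)) i ∧ rho k (1 / (k : ℝ)) i ≤ 1 := by
  have hk0 : (0 : ℝ) < k := by exact_mod_cast hk
  have habs : |(i : ℝ) - k| ≤ k := by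
    rw [abs_le]
    have : (i : ℝ) ≤ 2 * k := by exact_mod_cast (by omega : i ≤ 2 * k)
    have hi0 : (0 : ℝ) ≤ i := Nat.cast_nonneg i
    constructor <;> linarith
  have hsq : ((i : ℝ) - k) ^ 2 ≤ (k : ℝ) ^ 2 := by
    rw [← sq_abs]
    exact pow_le_pow_left₀ (abs_nonneg _) habs 2
  have h2 : (1 / (k : ℝ)) ^ 2 * ((i : ℝ) - k) ^ 2 ≤ 1 := by
    rw [div_pow, one_pow, div_mul_eq_mul_div, one_mul, div_le_one (by positivity)]
    exact hsq
  have h3 : 0 ≤ (1 / (k : ℝ)) ^ 2 * ((i : ℝ) - k) ^ 2 := by positivity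
  constructor
  · rw [rho]
    apply Real.exp_le_exp.2
    linarith
  · rw [rho, Real.exp_le_one_iff]
    linarith

lemma half_le_exp : (1 / 2 : ℝ) ≤ Real.exp (-(1 / 2)) := by
  have h1 : Real.exp (1 / 2) ≤ 2 := by
    have h2 : Real.exp (1 / 2) ^ 2 = Real.exp 1 := by
      rw [← Real.exp_nat_mul]
      norm_num
    have h3 := Real.exp_one_lt_d9
    have h4 : Real.exp (1 / 2) ^ 2 ≤ 2 ^ 2 := by
      rw [h2]
      linarith
    exact (pow_le_pow_iff_left₀ (Real.exp_pos _).le (by norm_num) two_ne_zero).1 h4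
  calc (1 / 2 : ℝ) = 2⁻¹ := by norm_num
    _ ≤ (Real.exp (1 / 2))⁻¹ := inv_anti₀ (Real.exp_pos _) h1
    _ = Real.exp (-(1 / 2)) := (Real.exp_neg _).symm

lemma Rtot_ge (k : ℕ) (hk : 1 ≤ k) : (k : ℝ) ≤ Rtot k (1 / (k : ℝ)) := by
  have h1 : ∑ _i ∈ range (2 * k + 1), (1 / 2 : ℝ) ≤ Rtot k (1 / (k : ℝ)) := by
    refine Finset.sum_le_sum (fun i hi => ?_)
    exact half_le_exp.trans (rho_bounds k hk i (Finset.mem_range.1 hi)).1
  simp only [Finset.sum_const, Finset.card_range, nsmul_eq_mul] at h1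
  push_cast at h1
  linarith

lemma Rtot_le (k : ℕ) (hk : 1 ≤ k) : Rtot k (1 / (k : ℝ)) ≤ 2 * k + 1 := by
  have h1 : Rtot k (1 / (k : ℝ)) ≤ ∑ _i ∈ range (2 * k + 1), (1 : ℝ) := by
    refine Finset.sum_le_sum (fun i hi => ?_)
    exact (rho_bounds k hk i (Finset.mem_range.1 hi)).2
  simp only [Finset.sum_const, Finset.card_range, nsmul_eq_mul, mul_one] at h1
  push_cast at h1
  linarith

/-- The second moment in one dimension. -/
lemma Dvar_ge (k : ℕ) (hk : 1 ≤ k) :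
    Rtot k (1 / (k : ℝ)) ^ 2 / 24 ≤ (1 / (k : ℝ)) ^ 2 * Dvar k (1 / (k : ℝ)) := by
  set h := 1 / (k : ℝ) with hh
  have hk0 : (0 : ℝ) < k := by exact_mod_cast hk
  have hterm : ∀ i j : Fin (2 * k + 1), (1 / 4 : ℝ) * (((i : ℕ) : ℝ) - ((j : ℕ) : ℝ)) ^ 2
      ≤ rhoF k h i * rhoF k h j * (gval k i - gval k j) ^ 2 := by
    intro i j
    have h1 := (rho_bounds k hk i i.isLt).1
    have h2 := (rho_bounds k hk j j.isLt).1
    have h3 := half_le_exp
    have h4 : (1 / 2 : ℝ) ≤ rhoF k h i := h3.trans h1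
    have h5 : (1 / 2 : ℝ) ≤ rhoF k h j := h3.trans h2
    have h6 : (1 / 4 : ℝ) ≤ rhoF k h i * rhoF k h j := by nlinarith
    have h7 : gval k i - gval k j = ((i : ℕ) : ℝ) - ((j : ℕ) : ℝ) := by
      simp [gval]
    rw [h7]
    exact mul_le_mul_of_nonneg_right h6 (sq_nonneg _)
  have hsum : (1 / 4 : ℝ) * ((2 * (k : ℝ) + 1) ^ 2 * ((2 * (k : ℝ) + 1) ^ 2 - 1) / 6) ≤ Dvar k h := by
    have h1 := sum_sum_diff_sq (2 * k + 1)
    rw [Finset.sum_range] at h1
    simp only [Finset.sum_range] at h1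
    push_cast at h1
    rw [← h1, Finset.mul_sum, Dvar]
    refine Finset.sum_le_sum (fun i _ => ?_)
    rw [Finset.mul_sum]
    exact Finset.sum_le_sum (fun j _ => hterm i j)
  have hR := Rtot_le k hk
  have hR0 : 0 ≤ Rtot k h := Finset.sum_nonneg (fun i _ => (rho_pos _ _ _).le)
  have hRsq : Rtot k h ^ 2 ≤ (2 * (k : ℝ) + 1) ^ 2 := pow_le_pow_left₀ hR0 hR 2
  have hh2 : h ^ 2 * (k : ℝ) ^ 2 = 1 := by
    rw [hh]
    field_simp
  have hfour : 4 * (k : ℝ) ^ 2 ≤ (2 * (k : ℝ) + 1) ^ 2 - 1 := by nlinarith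
  have h8 : (2 * (k : ℝ) + 1) ^ 2 / 6 ≤ h ^ 2 * ((2 * (k : ℝ) + 1) ^ 2 * ((2 * (k : ℝ) + 1) ^ 2 - 1) / 6) := by
    have hmm : 0 ≤ (2 * (k : ℝ) + 1) ^ 2 / 6 := by positivity
    have h9 : h ^ 2 * ((2 * (k : ℝ) + 1) ^ 2 - 1) ≥ 4 := by
      have : 0 ≤ h ^ 2 := sq_nonneg h
      nlinarith [mul_le_mul_of_nonneg_left hfour this]
    nlinarith
  have h10 : (1 / 4 : ℝ) * ((2 * (k : ℝ) + 1) ^ 2 / 6) ≤ h ^ 2 * Dvar k h := by
    have h2 : 0 ≤ h ^ 2 := sq_nonneg h
    have h3 := mul_le_mul_of_nonneg_left hsum h2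
    nlinarith
  nlinarith

end Vale.Agent.Lib.P249Low
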