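import Vale.Agent.Lib.P249Low.Khin

/-! The lower bound on the dimension for `p > 2`: the grid of `ℓ_2^k` inside `ℓ_p`, coordinates
of a map into `ℓ_p^d` are Lipschitz and concentrated. -/

namespace Vale.Agent.Lib.P249Low

open Finset
open scoped ENNReal

variable {p : ℝ≥0∞} [Fact (1 ≤ p)]

/-- The grid of indices. -/
abbrev GridT (k : ℕ) := Fin k → Fin (2 * k + 1)

/-- The grid of `ℓ_2^k` (step `1 / k`) mapped into `ℓ_p` over the cube by Rademacher sums. -/
noncomputable def psi (p : ℝ≥0∞) [Fact (1 ≤ p)] (k : ℕ) (x : Fin k → Fin (2 * k + 1)) :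
    PiLp p (fun _ : Fin k → Bool => ℝ) :=
  WithLp.toLp p (fun σ => (((2 : ℝ) ^ k)⁻¹) ^ (1 / p.toReal) *
    rad (fun l => (1 / (k : ℝ)) * gval k (x l)) σ)

lemma rad_sub {k : ℕ} (u v : Fin k → ℝ) (σ : Fin k → Bool) :
    rad u σ - rad v σ = rad (fun l => u l - v l) σ := by
  simp only [rad, ← Finset.sum_sub_distrib]
  refine Finset.sum_congr rfl (fun l _ => ?_)
  ring

/-- The `q`-th power of the norm of a difference. -/
lemma norm_psi_pow (hq : 0 < p.toReal) (k : ℕ) (x y : Fin k → Fin (2 * k + 1)) :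
    ‖psi p k x - psi p k y‖ ^ p.toReal
      = ((2 : ℝ) ^ k)⁻¹ * ∑ σ, |rad (fun l => (1 / (k : ℝ)) * (gval k (x l) - gval k (y l))) σ| ^ p.toReal := by
  set q := p.toReal with hqdef
  have h2k : (0 : ℝ) < ((2 : ℝ) ^ k)⁻¹ := by positivity
  rw [PiLp.norm_eq_sum (by exact hq), ← Real.rpow_mul (by positivity)]
  have h1 : 1 / q * q = 1 := by field_simp
  rw [h1, Real.rpow_one, Finset.mul_sum]
  refine Finset.sum_congr rfl (fun σ _ => ?_)
  rw [PiLp.sub_apply, Real.norm_eq_abs]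
  have h3 : (psi p k x) σ - (psi p k y) σ = (((2 : ℝ) ^ k)⁻¹) ^ (1 / q) *
      rad (fun l => (1 / (k : ℝ)) * (gval k (x l) - gval k (y l))) σ := by
    have h4 : (psi p k x) σ = (((2 : ℝ) ^ k)⁻¹) ^ (1 / q) *
        rad (fun l => (1 / (k : ℝ)) * gval k (x l)) σ := rfl
    have h5 : (psi p k y) σ = (((2 : ℝ) ^ k)⁻¹) ^ (1 / q) *
        rad (fun l => (1 / (k : ℝ)) * gval k (y l)) σ := rfl
    rw [h4, h5, ← mul_sub, rad_sub]
    congr 2
    funext l
    ring
  rw [h3, abs_mul, Real.mul_rpow (abs_nonneg _) (abs_nonneg _),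
    abs_of_pos (Real.rpow_pos_of_pos h2k _), ← Real.rpow_mul h2k.le, h1, Real.rpow_one]

/-- Sum of the squares of the difference vector. -/
lemma sum_sq_diff (k : ℕ) (x y : Fin k → Fin (2 * k + 1)) :
    ∑ l, ((1 / (k : ℝ)) * (gval k (x l) - gval k (y l))) ^ 2 = (1 / (k : ℝ)) ^ 2 * Sq k x y := by
  rw [Sq, Finset.mul_sum]
  refine Finset.sum_congr rfl (fun l _ => ?_)
  ring

/-- Lower norm bound. -/
lemma psi_lower (hq : 2 ≤ p.toReal) (k : ℕ) (x y : Fin k → Fin (2 * k + 1)) :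
    ((1 / (k : ℝ)) ^ 2 * Sq k x y) ^ (p.toReal / 2) ≤ ‖psi p k x - psi p k y‖ ^ p.toReal := by
  have hq0 : 0 < p.toReal := by linarith
  rw [norm_psi_pow hq0]
  have h1 := khin_lower k (fun l => (1 / (k : ℝ)) * (gval k (x l) - gval k (y l))) p.toReal hq
  rw [sum_sq_diff] at h1
  have h2k : (0 : ℝ) < (2 : ℝ) ^ k := by positivity
  calc _ = ((2 : ℝ) ^ k)⁻¹ * (2 ^ k * ((1 / (k : ℝ)) ^ 2 * Sq k x y) ^ (p.toReal / 2)) := by
        rw [← mul_assoc, inv_mul_cancel₀ h2k.ne', one_mul]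
    _ ≤ _ := mul_le_mul_of_nonneg_left h1 (by positivity)

/-- Upper norm bound. -/
lemma psi_upper (hq : 0 < p.toReal) (k : ℕ) (x y : Fin k → Fin (2 * k + 1)) :
    ‖psi p k x - psi p k y‖ ^ p.toReal
      ≤ (p.toReal ^ p.toReal * (2 * Real.exp (1 / 2))) * ((1 / (k : ℝ)) ^ 2 * Sq k x y) ^ (p.toReal / 2) := by
  rw [norm_psi_pow hq]
  have h1 := khin_upper k (fun l => (1 / (k : ℝ)) * (gval k (x l) - gval k (y l))) p.toReal hq
  rw [sum_sq_diff] at h1
  have h2k : (0 : ℝ) < (2 : ℝ) ^ k := by positivity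
  calc _ ≤ ((2 : ℝ) ^ k)⁻¹ * (2 ^ k * (p.toReal ^ p.toReal * (2 * Real.exp (1 / 2)))
        * ((1 / (k : ℝ)) ^ 2 * Sq k x y) ^ (p.toReal / 2)) :=
        mul_le_mul_of_nonneg_left h1 (by positivity)
    _ = _ := by
        rw [mul_assoc ((2 : ℝ) ^ k), ← mul_assoc _ ((2 : ℝ) ^ k), inv_mul_cancel₀ h2k.ne', one_mul]

/-- The Khintchine constant. -/
noncomputable def Bq (q : ℝ) : ℝ := (q ^ q * (2 * Real.exp (1 / 2))) ^ (1 / q)

lemma Bq_pos (q : ℝ) (hq : 0 < q) : 0 < Bq q :=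
  Real.rpow_pos_of_pos (mul_pos (Real.rpow_pos_of_pos hq q) (by positivity)) _

/-- Upper norm bound without powers. -/
lemma psi_upper' (hq : 0 < p.toReal) (k : ℕ) (x y : Fin k → Fin (2 * k + 1)) :
    ‖psi p k x - psi p k y‖
      ≤ Bq p.toReal * (|1 / (k : ℝ)| * Real.sqrt (Sq k x y)) := by
  set q := p.toReal with hqd
  have h0 := psi_upper hq k x y
  have hC : 0 < q ^ q * (2 * Real.exp (1 / 2)) :=
    mul_pos (Real.rpow_pos_of_pos hq q) (by positivity)
  have hE : 0 ≤ |1 / (k : ℝ)| * Real.sqrt (Sq k x y) := by positivity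
  have h1 : ((1 / (k : ℝ)) ^ 2 * Sq k x y) ^ (q / 2) = (|1 / (k : ℝ)| * Real.sqrt (Sq k x y)) ^ q := by
    have h2 : (1 / (k : ℝ)) ^ 2 * Sq k x y = (|1 / (k : ℝ)| * Real.sqrt (Sq k x y)) ^ 2 := by
      rw [mul_pow, sq_abs, Real.sq_sqrt (Sq_nonneg k x y)]
    rw [h2, ← Real.rpow_natCast, ← Real.rpow_mul hE]
    congr 1
    push_cast
    ring
  rw [h1] at h0
  have h3 : (Bq q * (|1 / (k : ℝ)| * Real.sqrt (Sq k x y))) ^ q
      = (q ^ q * (2 * Real.exp (1 / 2))) * (|1 / (k : ℝ)| * Real.sqrt (Sq k x y)) ^ q := by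
    rw [Real.mul_rpow (Bq_pos q hq).le hE, Bq, ← Real.rpow_mul hC.le]
    have : 1 / q * q = 1 := by field_simp
    rw [this, Real.rpow_one]
  rw [← h3] at h0
  exact (Real.rpow_le_rpow_iff (norm_nonneg _) (mul_nonneg (Bq_pos q hq).le hE) hq).1 h0

omit [Fact (1 ≤ p)] in
/-- The `ℓ_p` norm to the power `p` is the sum of the coordinates. -/
lemma norm_pow_eq_sum {d : ℕ} (hq : 0 < p.toReal) (v : PiLp p (fun _ : Fin d => ℝ)) :
    ‖v‖ ^ p.toReal = ∑ j, |v j| ^ p.toReal := by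
  rw [PiLp.norm_eq_sum (by exact hq), ← Real.rpow_mul (by positivity)]
  have h1 : 1 / p.toReal * p.toReal = 1 := by field_simp
  rw [h1, Real.rpow_one]
  simp only [Real.norm_eq_abs]

/-- The main inequality. -/
theorem core (hq : 2 ≤ p.toReal) (D : ℝ) (hD : 0 < D) (k : ℕ) (hk : 1 ≤ k) (d : ℕ)
    (F : (Fin k → Fin (2 * k + 1)) → PiLp p (fun _ : Fin d => ℝ)) (s : ℝ) (hs : 0 < s)
    (hF : ∀ x y, s * ‖psi p k x - psi p k y‖ ≤ ‖F x - F y‖ ∧
      ‖F x - F y‖ ≤ D * s * ‖psi p k x - psi p k y‖) :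
    ((k : ℝ) / 24) ^ (p.toReal / 2)
      ≤ d * ((D * Bq p.toReal) ^ p.toReal * p.toReal ^ p.toReal * (2 * Real.exp 1) * Real.exp 2) := by
  set q := p.toReal with hqd
  have hq0 : 0 < q := by linarith
  set h := 1 / (k : ℝ) with hh
  have hk0 : (0 : ℝ) < k := by exact_mod_cast hk
  set R := Rtot k h with hR
  have hRk : (k : ℝ) ≤ R := Rtot_ge k hk
  have hR0 : 0 < R := lt_of_lt_of_le hk0 hRk
  set L := D * s * Bq q with hL
  have hL0 : 0 < L := by
    have := Bq_pos q hq0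
    positivity
  set Big := ((R + 1) ^ 2) ^ k with hBig
  have hBig0 : 0 < Big := by positivity
  -- coordinates are Lipschitz
  have hcoord : ∀ j : Fin d, ∑ x : GridT k, ∑ y : GridT k, mu k h x * mu k h y * |(F x) j - (F y) j| ^ q
      ≤ L ^ q * q ^ q * (2 * Real.exp 1) * Big := by
    intro j
    refine moment_bound k hk h k (fun x => (F x) j) L hL0 ?_ q hq0
    intro x y
    have h1 : |(F x) j - (F y) j| ≤ ‖F x - F y‖ := by
      have := PiLp.norm_apply_le (F x - F y) j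
      rwa [PiLp.sub_apply, Real.norm_eq_abs] at this
    have h2 := (hF x y).2
    have h3 := psi_upper' hq0 k x y
    calc _ ≤ ‖F x - F y‖ := h1
      _ ≤ D * s * ‖psi p k x - psi p k y‖ := h2
      _ ≤ D * s * (Bq q * (|h| * Real.sqrt (Sq k x y))) :=
          mul_le_mul_of_nonneg_left h3 (by positivity)
      _ = _ := by rw [hL]; ring
  -- sum over the coordinates
  have hsumj : ∑ x : GridT k, ∑ y : GridT k, mu k h x * mu k h y * ‖F x - F y‖ ^ q
      ≤ d * (L ^ q * q ^ q * (2 * Real.exp 1) * Big) := by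
    have h1 : ∑ x : GridT k, ∑ y : GridT k, mu k h x * mu k h y * ‖F x - F y‖ ^ q
        = ∑ j : Fin d, ∑ x : GridT k, ∑ y : GridT k, mu k h x * mu k h y * |(F x) j - (F y) j| ^ q := by
      symm
      rw [Finset.sum_comm]
      refine Finset.sum_congr rfl (fun x _ => ?_)
      rw [Finset.sum_comm]
      refine Finset.sum_congr rfl (fun y _ => ?_)
      rw [norm_pow_eq_sum hq0, Finset.mul_sum]
      refine Finset.sum_congr rfl (fun j _ => ?_)
      rw [PiLp.sub_apply]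
    rw [h1]
    calc _ ≤ ∑ _j : Fin d, (L ^ q * q ^ q * (2 * Real.exp 1) * Big) :=
          Finset.sum_le_sum (fun j _ => hcoord j)
      _ = _ := by simp
  -- lower bound on the norm
  set Es : GridT k → GridT k → ℝ := fun x y => h ^ 2 * Sq k x y with hEs
  have hEs0 : ∀ x y, 0 ≤ Es x y := fun x y => mul_nonneg (sq_nonneg _) (Sq_nonneg k x y)
  have hlow : ∀ x y, s ^ q * (Es x y) ^ (q / 2) ≤ ‖F x - F y‖ ^ q := by
    intro x y
    have h1 := psi_lower hq k x y
    have h2 := (hF x y).1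
    have h3 : (s * ‖psi p k x - psi p k y‖) ^ q ≤ ‖F x - F y‖ ^ q :=
      Real.rpow_le_rpow (by positivity) h2 hq0.le
    rw [Real.mul_rpow hs.le (norm_nonneg _)] at h3
    exact (mul_le_mul_of_nonneg_left h1 (Real.rpow_pos_of_pos hs q).le).trans h3
  have hsq : 0 < s ^ q := Real.rpow_pos_of_pos hs q
  have hmain : ∑ x : GridT k, ∑ y : GridT k, mu k h x * mu k h y * (Es x y) ^ (q / 2)
      ≤ d * ((D * Bq q) ^ q * q ^ q * (2 * Real.exp 1) * Big) := by
    have h1 : s ^ q * ∑ x : GridT k, ∑ y : GridT k, mu k h x * mu k h y * (Es x y) ^ (q / 2)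
        ≤ ∑ x : GridT k, ∑ y : GridT k, mu k h x * mu k h y * ‖F x - F y‖ ^ q := by
      rw [Finset.mul_sum]
      refine Finset.sum_le_sum (fun x _ => ?_)
      rw [Finset.mul_sum]
      refine Finset.sum_le_sum (fun y _ => ?_)
      have hmm : 0 < mu k h x * mu k h y := mul_pos (mu_pos _ _ _) (mu_pos _ _ _)
      calc s ^ q * (mu k h x * mu k h y * (Es x y) ^ (q / 2))
          = mu k h x * mu k h y * (s ^ q * (Es x y) ^ (q / 2)) := by ring
        _ ≤ _ := mul_le_mul_of_nonneg_left (hlow x y) hmm.le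
    have h2 := h1.trans hsumj
    have hLq : L ^ q = (D * Bq q) ^ q * s ^ q := by
      have : L = (D * Bq q) * s := by rw [hL]; ring
      rw [this, Real.mul_rpow (mul_pos hD (Bq_pos q hq0)).le hs.le]
    rw [hLq] at h2
    have h3 : (d : ℝ) * ((D * Bq q) ^ q * s ^ q * q ^ q * (2 * Real.exp 1) * Big)
        = s ^ q * (d * ((D * Bq q) ^ q * q ^ q * (2 * Real.exp 1) * Big)) := by ring
    rw [h3] at h2
    exact le_of_mul_le_mul_left h2 hsq
  -- Jensen
  set Z := R ^ k with hZ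
  have hZ0 : 0 < Z := by positivity
  have hsumZ : ∑ x : GridT k, ∑ y : GridT k, mu k h x * mu k h y = Z ^ 2 := by
    have h1 : ∑ x : GridT k, mu k h x = Z := sum_mu k h k
    simp only [← Finset.mul_sum, ← Finset.sum_mul, h1]
    ring
  have hw0 : ∀ p' : GridT k × GridT k, 0 ≤ mu k h p'.1 * mu k h p'.2 / Z ^ 2 := fun p' =>
    div_nonneg (mul_pos (mu_pos _ _ _) (mu_pos _ _ _)).le (by positivity)
  have hjen := Real.rpow_arith_mean_le_arith_mean_rpow (Finset.univ : Finset (GridT k × GridT k))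
    (fun p' => mu k h p'.1 * mu k h p'.2 / Z ^ 2) (fun p' => Es p'.1 p'.2)
    (fun p' _ => hw0 p')
    (by
      rw [Fintype.sum_prod_type]
      simp only [← Finset.sum_div]
      rw [hsumZ]
      exact div_self (by positivity))
    (fun p' _ => hEs0 _ _) (p := q / 2) (by linarith)
  simp only [Fintype.sum_prod_type] at hjen
  have hsec : (k : ℝ) / 24 ≤ ∑ x : GridT k, ∑ y : GridT k, mu k h x * mu k h y / Z ^ 2 * Es x y := by
    have h1 := sum_Sq k h k
    have h2 := Dvar_ge k hk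
    have h3 : ∑ x : GridT k, ∑ y : GridT k, mu k h x * mu k h y / Z ^ 2 * Es x y
        = h ^ 2 / Z ^ 2 * ∑ x : GridT k, ∑ y : GridT k, mu k h x * mu k h y * Sq k x y := by
      rw [Finset.mul_sum]
      refine Finset.sum_congr rfl (fun x _ => ?_)
      rw [Finset.mul_sum]
      refine Finset.sum_congr rfl (fun y _ => ?_)
      simp only [hEs]
      ring
    rw [h3]
    have hZ2 : Z ^ 2 = R ^ (2 * k) := by
      rw [hZ, ← pow_mul, mul_comm]
    set T := ∑ x : GridT k, ∑ y : GridT k, mu k h x * mu k h y * Sq k x y with hT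
    have h4 : T * R ^ 2 = k * Dvar k h * Z ^ 2 := by
      rw [hZ2]
      exact h1
    have h5 : h ^ 2 / Z ^ 2 * T = k * (h ^ 2 * Dvar k h) / R ^ 2 := by
      have hR2 : R ^ 2 ≠ 0 := by positivity
      have hZ3 : Z ^ 2 ≠ 0 := by positivity
      have hT' : T = k * Dvar k h * Z ^ 2 / R ^ 2 := eq_div_of_mul_eq hR2 h4
      rw [hT']
      field_simp
    rw [h5, le_div_iff₀ (by positivity)]
    have h6 : (k : ℝ) * (R ^ 2 / 24) ≤ k * (h ^ 2 * Dvar k h) := mul_le_mul_of_nonneg_left h2 hk0.le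
    calc (k : ℝ) / 24 * R ^ 2 = k * (R ^ 2 / 24) := by ring
      _ ≤ _ := h6
  have hpow1 : ((k : ℝ) / 24) ^ (q / 2)
      ≤ (∑ x : GridT k, ∑ y : GridT k, mu k h x * mu k h y / Z ^ 2 * Es x y) ^ (q / 2) :=
    Real.rpow_le_rpow (by positivity) hsec (by linarith)
  have hjen2 : (∑ x : GridT k, ∑ y : GridT k, mu k h x * mu k h y / Z ^ 2 * Es x y) ^ (q / 2)
      ≤ (∑ x : GridT k, ∑ y : GridT k, mu k h x * mu k h y * (Es x y) ^ (q / 2)) / Z ^ 2 := by
    refine hjen.trans (le_of_eq ?_)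
    rw [Finset.sum_div]
    refine Finset.sum_congr rfl (fun x _ => ?_)
    rw [Finset.sum_div]
    refine Finset.sum_congr rfl (fun y _ => ?_)
    ring
  have hratio : Big ≤ Real.exp 2 * Z ^ 2 := by
    have h1 : Big = (1 + 1 / R) ^ (2 * k) * Z ^ 2 := by
      rw [hBig, hZ, ← pow_mul]
      have : Z ^ 2 = R ^ (2 * k) := by
        rw [hZ, ← pow_mul, mul_comm]
      rw [hZ] at this
      rw [this, ← mul_pow]
      congr 1
      field_simp
    rw [h1]
    apply mul_le_mul_of_nonneg_right _ (by positivity)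
    have h2 : 1 + 1 / R ≤ Real.exp (1 / R) := by
      have := Real.add_one_le_exp (1 / R)
      linarith
    have h3 : (1 + 1 / R) ^ (2 * k) ≤ Real.exp (1 / R) ^ (2 * k) :=
      pow_le_pow_left₀ (by positivity) h2 _
    have h4 : Real.exp (1 / R) ^ (2 * k) = Real.exp (((2 * k : ℕ) : ℝ) * (1 / R)) := by
      rw [← Real.exp_nat_mul]
    rw [h4] at h3
    refine h3.trans (Real.exp_le_exp.2 ?_)
    have h5 : (k : ℝ) / R ≤ 1 := (div_le_one hR0).2 hRk
    push_cast
    have : 2 * (k : ℝ) * (1 / R) = 2 * ((k : ℝ) / R) := by ring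
    rw [this]
    linarith
  have hmain2 : (∑ x : GridT k, ∑ y : GridT k, mu k h x * mu k h y * (Es x y) ^ (q / 2)) / Z ^ 2
      ≤ d * ((D * Bq q) ^ q * q ^ q * (2 * Real.exp 1) * Real.exp 2) := by
    rw [div_le_iff₀ (by positivity)]
    refine hmain.trans ?_
    have hconst : 0 ≤ (d : ℝ) * ((D * Bq q) ^ q * q ^ q * (2 * Real.exp 1)) := by
      have := Real.rpow_pos_of_pos hq0 q
      have h' := Real.rpow_pos_of_pos (mul_pos hD (Bq_pos q hq0)) q
      positivity
    calc (d : ℝ) * ((D * Bq q) ^ q * q ^ q * (2 * Real.exp 1) * Big)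
        = ((d : ℝ) * ((D * Bq q) ^ q * q ^ q * (2 * Real.exp 1))) * Big := by ring
      _ ≤ ((d : ℝ) * ((D * Bq q) ^ q * q ^ q * (2 * Real.exp 1))) * (Real.exp 2 * Z ^ 2) :=
          mul_le_mul_of_nonneg_left hratio hconst
      _ = _ := by ring
  exact hpow1.trans (hjen2.trans hmain2)

/-- `psi` is injective. -/
lemma psi_injective (hq : 2 ≤ p.toReal) (k : ℕ) (hk : 1 ≤ k) :
    Function.Injective (psi p k) := by
  intro x y hxy
  by_contra hne
  obtain ⟨l, hl⟩ := Function.ne_iff.1 hne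
  have h1 := psi_lower hq k x y
  rw [hxy, sub_self, norm_zero, Real.zero_rpow (by linarith)] at h1
  have hk0 : (0 : ℝ) < k := by exact_mod_cast hk
  have hS : 0 < Sq k x y := by
    have h2 : 0 < (gval k (x l) - gval k (y l)) ^ 2 := by
      have h3 : gval k (x l) ≠ gval k (y l) := by
        intro h4
        apply hl
        have h5 : ((x l : ℕ) : ℝ) = ((y l : ℕ) : ℝ) := by
          simp only [gval] at h4
          linarith
        exact Fin.ext (by exact_mod_cast h5)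
      exact sq_pos_of_ne_zero (sub_ne_zero.2 h3)
    exact lt_of_lt_of_le h2 (Finset.single_le_sum (f := fun l => (gval k (x l) - gval k (y l)) ^ 2)
      (fun _ _ => sq_nonneg _) (Finset.mem_univ l))
  have h4 : 0 < (1 / (k : ℝ)) ^ 2 * Sq k x y := by positivity
  have h5 := Real.rpow_pos_of_pos h4 (p.toReal / 2)
  linarith

/-- Lower bound in terms of the grid size. -/
theorem lower_grid (hq : 2 < p.toReal) (D : ℝ) (hD : 1 ≤ D) :
    ∃ c : ℝ, 0 < c ∧ ∀ k : ℕ, 1 ≤ k → ∀ n : ℕ, (2 * k + 1) ^ k ≤ n →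
      ∃ X : Finset (PiLp p (fun _ : Fin k → Bool => ℝ)), X.card = n ∧
        ∀ (d : ℕ) (f : X → PiLp p (fun _ : Fin d => ℝ)) (s : ℝ), 0 < s →
          (∀ x y : X, s * ‖(x : PiLp p (fun _ : Fin k → Bool => ℝ)) - y‖ ≤ ‖f x - f y‖ ∧
            ‖f x - f y‖ ≤ D * s * ‖(x : PiLp p (fun _ : Fin k → Bool => ℝ)) - y‖) →
          c * (k : ℝ) ^ (p.toReal / 2) ≤ d := by
  classical
  set q := p.toReal with hqd
  have hq0 : 0 < q := by linarith
  have hD0 : 0 < D := by linarith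
  set K := (D * Bq q) ^ q * q ^ q * (2 * Real.exp 1) * Real.exp 2 with hK
  have hK0 : 0 < K := by
    have h1 := Real.rpow_pos_of_pos hq0 q
    have h2 := Real.rpow_pos_of_pos (mul_pos hD0 (Bq_pos q hq0)) q
    positivity
  refine ⟨((1 : ℝ) / 24) ^ (q / 2) / K, by positivity, ?_⟩
  intro k hk n hn
  have hinf : Infinite (PiLp p (fun _ : Fin k → Bool => ℝ)) := by
    refine Infinite.of_injective (fun t : ℕ => WithLp.toLp p (fun _ : Fin k → Bool => (t : ℝ))) ?_
    intro a b hab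
    have h1 := congrArg (fun v : PiLp p (fun _ : Fin k → Bool => ℝ) => v (fun _ => true)) hab
    simpa using h1
  set X0 := (Finset.univ : Finset (Fin k → Fin (2 * k + 1))).image (psi p k) with hX0
  have hX0c : X0.card = (2 * k + 1) ^ k := by
    rw [hX0, Finset.card_image_of_injective _ (psi_injective hq.le k hk)]
    simp [Finset.card_univ]
  obtain ⟨X, hsub, hXc⟩ := Infinite.exists_superset_card_eq X0 n (by rw [hX0c]; exact hn)
  refine ⟨X, hXc, ?_⟩
  intro d f s hs hf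
  have hmem : ∀ x, psi p k x ∈ X := fun x =>
    hsub (Finset.mem_image.2 ⟨x, Finset.mem_univ x, rfl⟩)
  have hcore := core hq.le D hD0 k hk d (fun x => f ⟨psi p k x, hmem x⟩) s hs
    (fun x y => hf ⟨psi p k x, hmem x⟩ ⟨psi p k y, hmem y⟩)
  have hk0 : (0 : ℝ) < k := by exact_mod_cast hk
  have h1 : ((k : ℝ) / 24) ^ (q / 2) = (1 / 24 : ℝ) ^ (q / 2) * (k : ℝ) ^ (q / 2) := by
    rw [← Real.mul_rpow (by norm_num) hk0.le]
    congr 1
    ring
  rw [h1] at hcore
  rw [div_mul_eq_mul_div, div_le_iff₀ hK0]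
  exact hcore

/-- The lower bound in terms of the number of points. -/
theorem lower_log (hq : 2 < p.toReal) (D : ℝ) (hD : 1 ≤ D) :
    ∃ c : ℝ, 0 < c ∧ ∀ n : ℕ, Real.exp (Real.exp 2) ≤ (n : ℝ) →
      ∃ (ι : Type) (_ : Fintype ι) (X : Finset (PiLp p (fun _ : ι => ℝ))), X.card = n ∧
        ∀ (d : ℕ) (f : X → PiLp p (fun _ : Fin d => ℝ)) (s : ℝ), 0 < s →
          (∀ x y : X, s * ‖(x : PiLp p (fun _ : ι => ℝ)) - y‖ ≤ ‖f x - f y‖ ∧
            ‖f x - f y‖ ≤ D * s * ‖(x : PiLp p (fun _ : ι => ℝ)) - y‖) →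
          c * (Real.log n / Real.log (Real.log n)) ^ (p.toReal / 2) ≤ d := by
  obtain ⟨c0, hc0, hgrid⟩ := lower_grid hq D hD
  set q := p.toReal with hqd
  have hq0 : 0 < q := by linarith
  refine ⟨c0 * ((1 : ℝ) / 4) ^ (q / 2), by positivity, ?_⟩
  intro n hn
  have hnpos : (0 : ℝ) < n := lt_of_lt_of_le (Real.exp_pos _) hn
  set L := Real.log n with hL
  have hLe : Real.exp 2 ≤ L := by
    rw [hL, Real.le_log_iff_exp_le hnpos]
    exact hn
  have hL2 : (2 : ℝ) ≤ L := by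
    have := Real.add_one_le_exp (2 : ℝ)
    linarith
  have hL0 : 0 < L := by linarith
  set LL := Real.log L with hLL
  have hLL2 : 2 ≤ LL := by
    rw [hLL, Real.le_log_iff_exp_le hL0]
    exact hLe
  have hLL0 : 0 < LL := by linarith
  have hLLle : 2 * LL ≤ L := by
    have h1 : Real.log (L / 2) ≤ L / 2 - 1 := Real.log_le_sub_one_of_pos (by positivity)
    rw [Real.log_div hL0.ne' (by norm_num)] at h1
    have h2 : Real.log 2 ≤ 1 := by
      have := Real.log_two_lt_d9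
      linarith
    have h3 : LL ≤ L / 2 := by
      rw [hLL]
      linarith
    linarith
  set t := L / (2 * LL) with ht
  have ht1 : 1 ≤ t := by
    rw [ht, le_div_iff₀ (by positivity)]
    linarith
  set k := ⌊t⌋₊ with hk
  have hk1 : 1 ≤ k := Nat.le_floor (by exact_mod_cast ht1)
  have hkle : (k : ℝ) ≤ t := Nat.floor_le (by linarith)
  have hklt : t < k + 1 := Nat.lt_floor_add_one t
  have hk1R : (1 : ℝ) ≤ k := by exact_mod_cast hk1
  have hkge : t / 2 ≤ k := by linarith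
  have hpow : (2 * k + 1) ^ k ≤ n := by
    have h2k : (2 * (k : ℝ) + 1) ≤ L := by
      have h1 : 2 * t = L / LL := by
        rw [ht]
        field_simp
      have h2 : L / LL ≤ L / 2 := div_le_div_of_nonneg_left hL0.le (by norm_num) hLL2
      linarith
    have hlog : Real.log (2 * (k : ℝ) + 1) ≤ LL := Real.log_le_log (by positivity) h2k
    have hprod : (k : ℝ) * Real.log (2 * (k : ℝ) + 1) ≤ L := by
      calc (k : ℝ) * Real.log (2 * (k : ℝ) + 1) ≤ t * LL :=
            mul_le_mul hkle hlog (Real.log_nonneg (by linarith)) (by positivity)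
        _ = L / 2 := by
            rw [ht]
            field_simp
        _ ≤ L := by linarith
    have h3 : ((2 * k + 1) ^ k : ℝ) ≤ n := by
      have h4 : ((2 * (k : ℝ) + 1) ^ k : ℝ) = Real.exp ((k : ℝ) * Real.log (2 * (k : ℝ) + 1)) := by
        rw [Real.exp_nat_mul, Real.exp_log (by positivity)]
      have h5 : (n : ℝ) = Real.exp L := by
        rw [hL, Real.exp_log hnpos]
      rw [h4, h5]
      exact Real.exp_le_exp.2 hprod
    exact_mod_cast h3
  obtain ⟨X, hXc, hX⟩ := hgrid k hk1 n hpow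
  refine ⟨Fin k → Bool, inferInstance, X, hXc, ?_⟩
  intro d f s hs hf
  have h1 := hX d f s hs hf
  refine le_trans ?_ h1
  have h2 : (1 / 4 : ℝ) * (L / LL) ≤ k := by
    have : (1 / 4 : ℝ) * (L / LL) = t / 2 := by
      rw [ht]
      field_simp
      ring
    rw [this]
    exact hkge
  have h3 : ((1 / 4 : ℝ) * (L / LL)) ^ (q / 2) ≤ (k : ℝ) ^ (q / 2) :=
    Real.rpow_le_rpow (by positivity) h2 (by linarith)
  rw [Real.mul_rpow (by norm_num) (by positivity)] at h3
  calc c0 * ((1 : ℝ) / 4) ^ (q / 2) * (L / LL) ^ (q / 2)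
      = c0 * ((1 / 4 : ℝ) ^ (q / 2) * (L / LL) ^ (q / 2)) := by ring
    _ ≤ c0 * (k : ℝ) ^ (q / 2) := mul_le_mul_of_nonneg_left h3 hc0.le

end Vale.Agent.Lib.P249Low
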