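import Mathlib

/-! A discrete additive Prekopa inequality on integer intervals, the resulting one dimensional
inequality for discrete Gaussian weights, and its tensorisation. -/

namespace Vale.Agent.Lib.P249Low

open Finset MeasureTheory
open scoped Pointwise

lemma lint_ind (a : ℝ) (h1 : a ≤ 1) :
    ∫⁻ r, (Set.Iio a).indicator (1 : ℝ → ENNReal) r ∂(volume.restrict (Set.Ioo (0 : ℝ) 1))
      = ENNReal.ofReal a := by
  rw [lintegral_indicator_one measurableSet_Iio, Measure.restrict_apply measurableSet_Iio]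
  have : Set.Iio a ∩ Set.Ioo (0 : ℝ) 1 = Set.Ioo 0 a := by
    ext r
    simp only [Set.mem_inter_iff, Set.mem_Iio, Set.mem_Ioo]
    constructor
    · rintro ⟨h1', h2, _⟩
      exact ⟨h2, h1'⟩
    · rintro ⟨h2, h3⟩
      exact ⟨h3, h2, lt_of_lt_of_le h3 h1⟩
  rw [this, Real.volume_Ioo, sub_zero]

lemma lint_ind_le (a : ℝ) :
    ∫⁻ r, (Set.Iio a).indicator (1 : ℝ → ENNReal) r ∂(volume.restrict (Set.Ioo (0 : ℝ) 1))
      ≤ ENNReal.ofReal a := by
  rw [lintegral_indicator_one measurableSet_Iio, Measure.restrict_apply measurableSet_Iio]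
  have : Set.Iio a ∩ Set.Ioo (0 : ℝ) 1 ⊆ Set.Ioo 0 a := by
    intro r hr
    exact ⟨hr.2.1, hr.1⟩
  calc volume (Set.Iio a ∩ Set.Ioo (0 : ℝ) 1) ≤ volume (Set.Ioo 0 a) := measure_mono this
    _ = ENNReal.ofReal a := by rw [Real.volume_Ioo, sub_zero]

lemma sum_ind_eq (S : Finset ℕ) (u : ℕ → ℝ) (r : ℝ) :
    ∑ i ∈ S, (Set.Iio (u i)).indicator (1 : ℝ → ENNReal) r
      = ((S.filter (fun i => r < u i)).card : ENNReal) := by
  have : ∀ i ∈ S, (Set.Iio (u i)).indicator (1 : ℝ → ENNReal) r = if r < u i then 1 else 0 := by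
    intro i _
    simp [Set.indicator_apply]
  rw [Finset.sum_congr rfl this, Finset.sum_boole]

/-- The level set argument: the integer sumset bound `|A + B| ≥ |A| + |B| - 1`, integrated over
levels. -/
theorem level_sum (m : ℕ) (u v ω : ℕ → ℝ)
    (hu : ∀ i < m, 0 ≤ u i ∧ u i ≤ 1) (hv : ∀ i < m, 0 ≤ v i ∧ v i ≤ 1) (hω : ∀ s, 0 ≤ ω s)
    (i0 j0 : ℕ) (hi0 : i0 < m) (hj0 : j0 < m) (hui : u i0 = 1) (hvj : v j0 = 1)
    (hk : ∀ i < m, ∀ j < m, ∀ r : ℝ, 0 < r → r < 1 → r < u i → r < v j → r < ω (i + j)) :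
    ∑ i ∈ range m, u i + ∑ j ∈ range m, v j ≤ 1 + ∑ s ∈ range (2 * m - 1), ω s := by
  set μ : Measure ℝ := volume.restrict (Set.Ioo (0 : ℝ) 1) with hμ
  have hmeas : ∀ a : ℝ, Measurable ((Set.Iio a).indicator (1 : ℝ → ENNReal)) :=
    fun a => measurable_one.indicator measurableSet_Iio
  have hpoint : ∀ r ∈ Set.Ioo (0 : ℝ) 1,
      (∑ i ∈ range m, (Set.Iio (u i)).indicator (1 : ℝ → ENNReal) r)
        + ∑ j ∈ range m, (Set.Iio (v j)).indicator (1 : ℝ → ENNReal) r
      ≤ 1 + ∑ s ∈ range (2 * m - 1), (Set.Iio (ω s)).indicator (1 : ℝ → ENNReal) r := by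
    rintro r ⟨hr0, hr1⟩
    rw [sum_ind_eq, sum_ind_eq, sum_ind_eq]
    set A := (range m).filter (fun i => r < u i) with hA
    set B := (range m).filter (fun i => r < v i) with hB
    set S := (range (2 * m - 1)).filter (fun s => r < ω s) with hS
    have hAne : A.Nonempty := ⟨i0, by simp [hA, hi0, hui, hr1]⟩
    have hBne : B.Nonempty := ⟨j0, by simp [hB, hj0, hvj, hr1]⟩
    have hsub : A + B ⊆ S := by
      intro s hs
      obtain ⟨i, hi, j, hj, rfl⟩ := Finset.mem_add.1 hs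
      simp only [hA, hB, Finset.mem_filter, Finset.mem_range] at hi hj
      simp only [hS, Finset.mem_filter, Finset.mem_range]
      refine ⟨by omega, hk i hi.1 j hj.1 r hr0 hr1 hi.2 hj.2⟩
    have h1 := cauchy_davenport_add_of_linearOrder_isCancelAdd hAne hBne
    have h2 := Finset.card_le_card hsub
    have h3 : A.card + B.card ≤ 1 + S.card := by
      have := hAne.card_pos
      omega
    exact_mod_cast h3
  have hL : ∫⁻ r, ((∑ i ∈ range m, (Set.Iio (u i)).indicator (1 : ℝ → ENNReal) r)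
        + ∑ j ∈ range m, (Set.Iio (v j)).indicator (1 : ℝ → ENNReal) r) ∂μ
      = ∑ i ∈ range m, ENNReal.ofReal (u i) + ∑ j ∈ range m, ENNReal.ofReal (v j) := by
    rw [lintegral_add_left (Finset.measurable_sum _ (fun i _ => hmeas _)),
      lintegral_finsetSum _ (fun i _ => hmeas _), lintegral_finsetSum _ (fun i _ => hmeas _)]
    congr 1
    · refine Finset.sum_congr rfl (fun i hi => ?_)
      have := hu i (Finset.mem_range.1 hi)
      exact lint_ind _ this.2
    · refine Finset.sum_congr rfl (fun i hi => ?_)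
      have := hv i (Finset.mem_range.1 hi)
      exact lint_ind _ this.2
  have hR : ∫⁻ r, (1 + ∑ s ∈ range (2 * m - 1), (Set.Iio (ω s)).indicator (1 : ℝ → ENNReal) r) ∂μ
      ≤ 1 + ∑ s ∈ range (2 * m - 1), ENNReal.ofReal (ω s) := by
    rw [lintegral_add_right _ (Finset.measurable_sum _ (fun i _ => hmeas _)),
      lintegral_finsetSum _ (fun i _ => hmeas _)]
    have h1 : ∫⁻ _r, (1 : ENNReal) ∂μ = 1 := by
      rw [lintegral_one, hμ, Measure.restrict_apply_univ, Real.volume_Ioo]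
      simp
    rw [h1]
    gcongr with s _
    exact lint_ind_le _
  have hmono : ∫⁻ r, ((∑ i ∈ range m, (Set.Iio (u i)).indicator (1 : ℝ → ENNReal) r)
        + ∑ j ∈ range m, (Set.Iio (v j)).indicator (1 : ℝ → ENNReal) r) ∂μ
      ≤ ∫⁻ r, (1 + ∑ s ∈ range (2 * m - 1), (Set.Iio (ω s)).indicator (1 : ℝ → ENNReal) r) ∂μ := by
    refine lintegral_mono_ae ?_
    exact (ae_restrict_iff' measurableSet_Ioo).2 (Filter.Eventually.of_forall hpoint)
  have hfin := hL ▸ hmono.trans hR
  have hu0 : ∀ i ∈ range m, 0 ≤ u i := fun i hi => (hu i (Finset.mem_range.1 hi)).1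
  have hv0 : ∀ i ∈ range m, 0 ≤ v i := fun i hi => (hv i (Finset.mem_range.1 hi)).1
  rw [← ENNReal.ofReal_sum_of_nonneg hu0, ← ENNReal.ofReal_sum_of_nonneg hv0,
    ← ENNReal.ofReal_sum_of_nonneg (fun s _ => hω s), ← ENNReal.ofReal_add
      (Finset.sum_nonneg hu0) (Finset.sum_nonneg hv0), ← ENNReal.ofReal_one,
    ← ENNReal.ofReal_add zero_le_one (Finset.sum_nonneg (fun s _ => hω s))] at hfin
  exact (ENNReal.ofReal_le_ofReal_iff (add_nonneg zero_le_one
    (Finset.sum_nonneg (fun s _ => hω s)))).1 hfin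

/-- Additive Prekopa on an integer interval. -/
theorem pl_add (m : ℕ) (hm : 0 < m) (f g w : ℕ → ℝ) (hf : ∀ i < m, 0 < f i) (hg : ∀ i < m, 0 < g i)
    (hw : ∀ s, 0 ≤ w s) (W : ℝ) (hW : ∀ s, w s ≤ W)
    (h : ∀ i < m, ∀ j < m, f i * g j ≤ (w (i + j)) ^ 2) :
    4 * (∑ i ∈ range m, f i) * (∑ j ∈ range m, g j)
      ≤ (W + ∑ s ∈ range (2 * m - 1), w s) ^ 2 := by
  have hne : (range m).Nonempty := ⟨0, Finset.mem_range.2 hm⟩
  obtain ⟨i0, hi0, hi0max⟩ := Finset.exists_max_image (range m) f hne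
  obtain ⟨j0, hj0, hj0max⟩ := Finset.exists_max_image (range m) g hne
  have hi0' := Finset.mem_range.1 hi0
  have hj0' := Finset.mem_range.1 hj0
  set F := f i0 with hF
  set G := g j0 with hG
  have hFpos : 0 < F := hf i0 hi0'
  have hGpos : 0 < G := hg j0 hj0'
  set γ := Real.sqrt (F * G) with hγ
  have hFG : 0 < F * G := mul_pos hFpos hGpos
  have hγpos : 0 < γ := Real.sqrt_pos.2 hFG
  have hγsq : γ ^ 2 = F * G := Real.sq_sqrt hFG.le
  have hlev := level_sum m (fun i => f i / F) (fun j => g j / G) (fun s => w s / γ)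
    (fun i hi => ⟨(div_pos (hf i hi) hFpos).le, (div_le_one hFpos).2
      (hi0max i (Finset.mem_range.2 hi))⟩)
    (fun i hi => ⟨(div_pos (hg i hi) hGpos).le, (div_le_one hGpos).2
      (hj0max i (Finset.mem_range.2 hi))⟩)
    (fun s => div_nonneg (hw s) hγpos.le) i0 j0 hi0' hj0' (div_self hFpos.ne') (div_self hGpos.ne')
    (by
      intro i hi j hj r hr0 _ hru hrv
      have h1 : r ^ 2 < (f i / F) * (g j / G) := by
        rw [sq]
        exact mul_lt_mul'' hru hrv hr0.le hr0.le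
      have h2 : (f i / F) * (g j / G) = f i * g j / γ ^ 2 := by
        rw [hγsq]
        field_simp
      have h3 : f i * g j / γ ^ 2 ≤ (w (i + j) / γ) ^ 2 := by
        rw [div_pow]
        exact div_le_div_of_nonneg_right (h i hi j hj) (by positivity)
      have h4 : r ^ 2 < (w (i + j) / γ) ^ 2 := by
        rw [h2] at h1
        exact lt_of_lt_of_le h1 h3
      exact lt_of_pow_lt_pow_left₀ 2 (div_nonneg (hw _) hγpos.le) h4)
  set P := ∑ i ∈ range m, f i with hP
  set Q := ∑ j ∈ range m, g j with hQ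
  set T := ∑ s ∈ range (2 * m - 1), w s with hT
  have hPdiv : ∑ i ∈ range m, f i / F = P / F := by rw [hP, Finset.sum_div]
  have hQdiv : ∑ j ∈ range m, g j / G = Q / G := by rw [hQ, Finset.sum_div]
  have hTdiv : ∑ s ∈ range (2 * m - 1), w s / γ = T / γ := by rw [hT, Finset.sum_div]
  rw [hPdiv, hQdiv, hTdiv] at hlev
  have hPpos : 0 ≤ P := Finset.sum_nonneg (fun i hi => (hf i (Finset.mem_range.1 hi)).le)
  have hQpos : 0 ≤ Q := Finset.sum_nonneg (fun i hi => (hg i (Finset.mem_range.1 hi)).le)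
  have hTpos : 0 ≤ T := Finset.sum_nonneg (fun i _ => hw i)
  have hγW : γ ≤ W := by
    have h1 : γ ^ 2 ≤ (w (i0 + j0)) ^ 2 := by
      rw [hγsq]
      exact h i0 hi0' j0 hj0'
    have h2 : γ ≤ w (i0 + j0) := (pow_le_pow_iff_left₀ hγpos.le (hw _) two_ne_zero).1 h1
    exact h2.trans (hW _)
  have hAMGM : 4 * (P / F) * (Q / G) ≤ (P / F + Q / G) ^ 2 := by nlinarith [sq_nonneg (P / F - Q / G)]
  have hdiv0 : 0 ≤ P / F + Q / G := by positivity
  have hsq : (P / F + Q / G) ^ 2 ≤ (1 + T / γ) ^ 2 := pow_le_pow_left₀ hdiv0 hlev 2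
  have h5 : 4 * (P / F) * (Q / G) ≤ (1 + T / γ) ^ 2 := hAMGM.trans hsq
  have h6 : 4 * P * Q = (4 * (P / F) * (Q / G)) * (F * G) := by
    field_simp
  have h7 : (γ + T) ^ 2 = (1 + T / γ) ^ 2 * (F * G) := by
    rw [← hγsq]
    field_simp
  rw [h6]
  calc (4 * (P / F) * (Q / G)) * (F * G) ≤ (1 + T / γ) ^ 2 * (F * G) :=
        mul_le_mul_of_nonneg_right h5 hFG.le
    _ = (γ + T) ^ 2 := h7.symm
    _ ≤ (W + T) ^ 2 := pow_le_pow_left₀ (by positivity) (by linarith) 2

/-- Sign-fixing helper for `w` and the even and odd split of a range sum. -/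
lemma sum_range_even_odd (w : ℕ → ℝ) (n : ℕ) :
    ∑ s ∈ range (2 * n + 1), w s
      = ∑ t ∈ range (n + 1), w (2 * t) + ∑ t ∈ range n, w (2 * t + 1) := by
  induction n with
  | zero => simp
  | succ n ih =>
    have : 2 * (n + 1) + 1 = (2 * n + 1) + 1 + 1 := by ring
    rw [this, Finset.sum_range_succ, Finset.sum_range_succ, ih,
      Finset.sum_range_succ (fun t => w (2 * t)) (n + 1),
      Finset.sum_range_succ (fun t => w (2 * t + 1)) n]
    have h1 : 2 * (n + 1) = 2 * n + 1 + 1 := by ring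
    rw [h1]
    ring

/-- The discrete Gaussian weight with centre `M` and step `h`. -/
noncomputable def rho (M : ℕ) (h : ℝ) (i : ℕ) : ℝ := Real.exp (-(h ^ 2 * ((i : ℝ) - M) ^ 2) / 2)

/-- Total mass. -/
noncomputable def Rtot (M : ℕ) (h : ℝ) : ℝ := ∑ i ∈ range (2 * M + 1), rho M h i

lemma rho_pos (M : ℕ) (h : ℝ) (i : ℕ) : 0 < rho M h i := Real.exp_pos _

lemma rho_center (M : ℕ) (h : ℝ) : rho M h M = 1 := by simp [rho]

/-- The sum of the sumset weights. -/
lemma sum_w_le (M : ℕ) (hM : 1 ≤ M) (h : ℝ) :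
    ∑ s ∈ range (2 * (2 * M + 1) - 1), Real.exp (-(h ^ 2 * ((s : ℝ) - 2 * M) ^ 2) / 8)
      ≤ 2 * Rtot M h + 1 := by
  set w : ℕ → ℝ := fun s => Real.exp (-(h ^ 2 * ((s : ℝ) - 2 * M) ^ 2) / 8) with hw
  have hrange : 2 * (2 * M + 1) - 1 = 2 * (2 * M) + 1 := by omega
  rw [hrange, sum_range_even_odd]
  have heven : ∑ t ∈ range (2 * M + 1), w (2 * t) = Rtot M h := by
    refine Finset.sum_congr rfl (fun t _ => ?_)
    simp only [hw, rho]
    congr 1
    push_cast
    ring
  have hodd : ∑ t ∈ range (2 * M), w (2 * t + 1) ≤ Rtot M h + 1 := by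
    have h2M : 2 * M = M + M := by ring
    rw [h2M, Finset.sum_range_add]
    have h1 : ∑ t ∈ range M, w (2 * t + 1) ≤ ∑ t ∈ range M, rho M h (t + 1) := by
      refine Finset.sum_le_sum (fun t ht => ?_)
      have htM : t < M := Finset.mem_range.1 ht
      simp only [hw, rho]
      apply Real.exp_le_exp.2
      have hc : ((t : ℝ) + 1 - M) ≤ 0 := by
        have : ((t : ℝ) + 1) ≤ M := by exact_mod_cast htM
        linarith
      push_cast
      have h3 : 4 * ((t : ℝ) + 1 - M) ^ 2 ≤ (2 * (t : ℝ) + 1 - 2 * M) ^ 2 := by nlinarith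
      have hh : 0 ≤ h ^ 2 := sq_nonneg h
      nlinarith [mul_le_mul_of_nonneg_left h3 hh]
    have h2 : ∑ t ∈ range M, w (2 * (M + t) + 1) ≤ ∑ t ∈ range M, rho M h (M + t) := by
      refine Finset.sum_le_sum (fun t _ => ?_)
      simp only [hw, rho]
      apply Real.exp_le_exp.2
      push_cast
      have ht : (0 : ℝ) ≤ t := Nat.cast_nonneg t
      have h3 : 4 * ((M : ℝ) + t - M) ^ 2 ≤ (2 * ((M : ℝ) + t) + 1 - 2 * M) ^ 2 := by nlinarith
      have hh : 0 ≤ h ^ 2 := sq_nonneg h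
      nlinarith [mul_le_mul_of_nonneg_left h3 hh]
    have h3 : Rtot M h = ∑ t ∈ range (M + 1), rho M h t + ∑ t ∈ range M, rho M h (M + 1 + t) := by
      have : 2 * M + 1 = (M + 1) + M := by ring
      rw [Rtot, this, Finset.sum_range_add]
    have h4 : ∑ t ∈ range (M + 1), rho M h t = ∑ t ∈ range M, rho M h (t + 1) + rho M h 0 := by
      rw [Finset.sum_range_succ']
    obtain ⟨M', rfl⟩ : ∃ M', M = M' + 1 := ⟨M - 1, by omega⟩
    have h5 : ∑ t ∈ range (M' + 1), rho (M' + 1) h (M' + 1 + t)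
        = ∑ t ∈ range M', rho (M' + 1) h (M' + 1 + (t + 1)) + rho (M' + 1) h (M' + 1 + 0) := by
      rw [Finset.sum_range_succ']
    have h6 : ∑ t ∈ range (M' + 1), rho (M' + 1) h (M' + 1 + 1 + t)
        = ∑ t ∈ range M', rho (M' + 1) h (M' + 1 + 1 + t) + rho (M' + 1) h (M' + 1 + 1 + M') := by
      rw [Finset.sum_range_succ]
    have h7 : rho (M' + 1) h (M' + 1 + 0) = 1 := by
      have := rho_center (M' + 1) h
      simpa using this
    have h8 : ∑ t ∈ range M', rho (M' + 1) h (M' + 1 + (t + 1))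
        = ∑ t ∈ range M', rho (M' + 1) h (M' + 1 + 1 + t) := by
      refine Finset.sum_congr rfl (fun t _ => ?_)
      congr 1
      ring
    have h9 := rho_pos (M' + 1) h 0
    have h10 := rho_pos (M' + 1) h (M' + 1 + 1 + M')
    linarith
  linarith

/-- The one dimensional inequality for the discrete Gaussian. -/
theorem one_d (M : ℕ) (hM : 1 ≤ M) (h : ℝ) (a b : ℕ → ℝ)
    (hab : ∀ i < 2 * M + 1, ∀ j < 2 * M + 1,
      a i + b j ≤ h ^ 2 / 4 * (((i : ℝ) - M) - ((j : ℝ) - M)) ^ 2) :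
    (∑ i ∈ range (2 * M + 1), rho M h i * Real.exp (a i))
      * (∑ j ∈ range (2 * M + 1), rho M h j * Real.exp (b j)) ≤ (Rtot M h + 1) ^ 2 := by
  set w : ℕ → ℝ := fun s => Real.exp (-(h ^ 2 * ((s : ℝ) - 2 * M) ^ 2) / 8) with hw
  have hpl := pl_add (2 * M + 1) (by omega) (fun i => rho M h i * Real.exp (a i))
    (fun j => rho M h j * Real.exp (b j)) w
    (fun i _ => mul_pos (rho_pos _ _ _) (Real.exp_pos _))
    (fun i _ => mul_pos (rho_pos _ _ _) (Real.exp_pos _))
    (fun s => (Real.exp_pos _).le) 1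
    (fun s => by
      simp only [hw]
      rw [Real.exp_le_one_iff]
      have : 0 ≤ h ^ 2 * ((s : ℝ) - 2 * M) ^ 2 := by positivity
      linarith)
    (fun i hi j hj => by
      simp only [hw, rho]
      rw [mul_mul_mul_comm, ← Real.exp_add, ← Real.exp_add, ← Real.exp_add, pow_two (Real.exp _), ← Real.exp_add]
      apply Real.exp_le_exp.2
      have := hab i hi j hj
      push_cast
      nlinarith)
  have hsum := sum_w_le M hM h
  have hR : 0 ≤ Rtot M h := Finset.sum_nonneg (fun i _ => (rho_pos _ _ _).le)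
  have hT : 0 ≤ ∑ s ∈ range (2 * (2 * M + 1) - 1), w s :=
    Finset.sum_nonneg (fun s _ => (Real.exp_pos _).le)
  have h2 : (1 + ∑ s ∈ range (2 * (2 * M + 1) - 1), w s) ^ 2 ≤ (2 * Rtot M h + 2) ^ 2 := by
    apply pow_le_pow_left₀ (by positivity)
    simp only [hw]
    linarith
  have hfin := hpl.trans h2
  nlinarith

/-- Tensorisation of a one dimensional bilinear exponential inequality. -/
theorem tensor {α : Type*} [Fintype α] [Nonempty α] (ρ : α → ℝ) (hρ : ∀ i, 0 < ρ i)
    (d : α → α → ℝ) (C : ℝ) (hC : 0 < C)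
    (h1 : ∀ a b : α → ℝ, (∀ i j, a i + b j ≤ d i j) →
      (∑ i, ρ i * Real.exp (a i)) * (∑ j, ρ j * Real.exp (b j)) ≤ C) (k : ℕ) :
    ∀ a b : (Fin k → α) → ℝ, (∀ x y, a x + b y ≤ ∑ l, d (x l) (y l)) →
      (∑ x, (∏ l, ρ (x l)) * Real.exp (a x)) * (∑ y, (∏ l, ρ (y l)) * Real.exp (b y)) ≤ C ^ k := by
  induction k with
  | zero =>
    intro a b hab
    have hx : ∀ x : Fin 0 → α, x = fun i => i.elim0 := fun x => funext (fun i => i.elim0)
    have := hab (fun i => i.elim0) (fun i => i.elim0)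
    simp only [Finset.univ_eq_empty, Finset.sum_empty] at this
    simp only [pow_zero, Finset.univ_unique, Finset.sum_singleton, Finset.prod_empty, one_mul,
      Finset.univ_eq_empty]
    rw [← Real.exp_add, Real.exp_le_one_iff]
    have hd : (default : Fin 0 → α) = fun i => i.elim0 := hx _
    rw [hd]
    exact this
  | succ k ih =>
    intro a b hab
    classical
    have hsplit : ∀ F : (Fin (k + 1) → α) → ℝ,
        ∑ x, (∏ l, ρ (x l)) * Real.exp (F x)
          = ∑ i, ρ i * ∑ x' : Fin k → α, (∏ l, ρ (x' l)) * Real.exp (F (Fin.cons i x')) := by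
      intro F
      rw [← (Fin.consEquiv (fun _ => α)).sum_comp, Fintype.sum_prod_type]
      refine Finset.sum_congr rfl (fun i _ => ?_)
      rw [Finset.mul_sum]
      refine Finset.sum_congr rfl (fun x' _ => ?_)
      simp only [Fin.consEquiv, Equiv.coe_fn_mk, Fin.prod_univ_succ, Fin.cons_zero, Fin.cons_succ]
      ring
    have hpos : ∀ F : (Fin k → α) → ℝ,
        0 < ∑ x' : Fin k → α, (∏ l, ρ (x' l)) * Real.exp (F x') := by
      intro F
      apply Finset.sum_pos
      · intro x' _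
        exact mul_pos (Finset.prod_pos (fun l _ => hρ _)) (Real.exp_pos _)
      · exact Finset.univ_nonempty
    set A : α → ℝ := fun i =>
      Real.log (∑ x' : Fin k → α, (∏ l, ρ (x' l)) * Real.exp (a (Fin.cons i x'))) with hA
    set B : α → ℝ := fun j =>
      Real.log (∑ x' : Fin k → α, (∏ l, ρ (x' l)) * Real.exp (b (Fin.cons j x'))) with hB
    have hAe : ∀ i, Real.exp (A i)
        = ∑ x' : Fin k → α, (∏ l, ρ (x' l)) * Real.exp (a (Fin.cons i x')) :=
      fun i => Real.exp_log (hpos _)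
    have hBe : ∀ j, Real.exp (B j)
        = ∑ x' : Fin k → α, (∏ l, ρ (x' l)) * Real.exp (b (Fin.cons j x')) :=
      fun j => Real.exp_log (hpos _)
    have hCk : 0 < C ^ k := pow_pos hC k
    have hcross : ∀ i j, (A i - Real.log (C ^ k)) + B j ≤ d i j := by
      intro i j
      have h2 := ih (fun x' => a (Fin.cons i x') - d i j) (fun y' => b (Fin.cons j y'))
        (by
          intro x' y'
          have h3 := hab (Fin.cons i x') (Fin.cons j y')
          rw [Fin.sum_univ_succ] at h3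
          simp only [Fin.cons_zero, Fin.cons_succ] at h3
          linarith)
      have h4 : ∑ x' : Fin k → α, (∏ l, ρ (x' l)) * Real.exp (a (Fin.cons i x') - d i j)
          = Real.exp (- d i j) * Real.exp (A i) := by
        rw [hAe, Finset.mul_sum]
        refine Finset.sum_congr rfl (fun x' _ => ?_)
        rw [sub_eq_add_neg, Real.exp_add]
        ring
      rw [h4, ← hBe, ← Real.exp_add, ← Real.exp_add, ← Real.exp_log hCk] at h2
      have h5 := Real.exp_le_exp.1 h2
      linarith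
    have h6 := h1 (fun i => A i - Real.log (C ^ k)) B hcross
    have h7 : ∑ i, ρ i * Real.exp (A i - Real.log (C ^ k))
        = (∑ i, ρ i * Real.exp (A i)) / C ^ k := by
      rw [Finset.sum_div]
      refine Finset.sum_congr rfl (fun i _ => ?_)
      rw [sub_eq_add_neg, Real.exp_add, Real.exp_neg, Real.exp_log hCk]
      field_simp
    rw [h7, div_mul_eq_mul_div, div_le_iff₀ hCk] at h6
    rw [hsplit a, hsplit b]
    simp only [← hAe, ← hBe]
    calc _ ≤ C * C ^ k := h6
      _ = C ^ (k + 1) := by ring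

end Vale.Agent.Lib.P249Low
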